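import Vale.Agent.P037.Disproof.Spec

/-!
Counting the copies, and choosing the parameters of the counterexample.
-/

open Finset Filter

namespace Vale.Agent.P037.Disproof

/-- Tuples with one prescribed pair. -/
lemma card_fixed_pair {k n : ℕ} (S : Finset (Fin n × Fin n)) (i j : Fin (k + 1))
    (T : Finset ((Fin (k + 1) → Fin n) × (Fin (k + 1) → Fin n)))
    (hT : ∀ p ∈ T, (p.1 i, p.2 j) ∈ S) : T.card ≤ S.card * n ^ (2 * k) := by
  calc T.card
      ≤ (S ×ˢ (univ : Finset ((Fin k → Fin n) × (Fin k → Fin n)))).card := by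
        refine card_le_card_of_injOn (fun p => ((p.1 i, p.2 j),
          ((fun a => p.1 (i.succAbove a)), (fun a => p.2 (j.succAbove a))))) ?_ ?_
        · intro p hp
          simpa using hT p (by simpa using hp)
        · intro p _ q _ h
          simp only [Prod.mk.injEq] at h
          obtain ⟨⟨h1, h2⟩, h3, h4⟩ := h
          apply Prod.ext <;> funext a
          · rcases Fin.eq_self_or_eq_succAbove i a with rfl | ⟨b, rfl⟩
            · exact h1
            · exact congrFun h3 b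
          · rcases Fin.eq_self_or_eq_succAbove j a with rfl | ⟨b, rfl⟩
            · exact h2
            · exact congrFun h4 b
    _ = S.card * n ^ (2 * k) := by
        simp [← pow_add, two_mul]

/-- The pairs of a main row and a main column in the same leaf are few. -/
lemma deep_card (D M m : ℕ) (hm : 1 ≤ m) (S : Finset (Fin (size D M m) × Fin (size D M m)))
    (hS : ∀ x ∈ S, ∃ v u u', rowTy D M m x.1 = .main v u ∧ colTy D M m x.2 = .main v u') :
    S.card * 2 ^ D ≤ size D M m ^ 2 := by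
  have ha : 0 < (2 * D + 1) * m := Nat.mul_pos (by omega) hm
  have h1 : S.card ≤ (range (2 ^ D) ×ˢ (range ((2 * D + 1) * m) ×ˢ
      range ((2 * D + 1) * m))).card := by
    refine card_le_card_of_injOn (fun x =>
      (((x.1 : ℕ) - (M + lk D + 1) * unit D m) / ((2 * D + 1) * m),
        ((x.1 : ℕ) - (M + lk D + 1) * unit D m) % ((2 * D + 1) * m),
        ((x.2 : ℕ) - (M + lk D) * unit D m) % ((2 * D + 1) * m))) ?_ ?_
    · intro x hx
      obtain ⟨v, u, u', hr, -⟩ := hS x (by simpa using hx)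
      obtain ⟨-, hv, hv2, -⟩ := rowTy_main hm hr
      rw [Nat.div_div_eq_div_mul] at hv
      simp only [coe_product, Set.mem_prod, coe_range, Set.mem_Iio]
      exact ⟨hv ▸ hv2, Nat.mod_lt _ ha, Nat.mod_lt _ ha⟩
    · intro x hx y hy h
      simp only [Prod.mk.injEq] at h
      obtain ⟨e1, e2, e3⟩ := h
      obtain ⟨v, u, u', hr, hc⟩ := hS x (by simpa using hx)
      obtain ⟨w, t, t', hr', hc'⟩ := hS y (by simpa using hy)
      obtain ⟨bx, vx, -, -⟩ := rowTy_main hm hr
      obtain ⟨by', vy, -, -⟩ := rowTy_main hm hr'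
      obtain ⟨cx, wx, -, -⟩ := colTy_main hm hc
      obtain ⟨cy, wy, -, -⟩ := colTy_main hm hc'
      rw [Nat.div_div_eq_div_mul] at vx vy wx wy
      have e4 : ((x.2 : ℕ) - (M + lk D) * unit D m) / ((2 * D + 1) * m)
          = ((y.2 : ℕ) - (M + lk D) * unit D m) / ((2 * D + 1) * m) := by
        rw [← wx, ← wy, vx, vy, e1]
      have f1 := Nat.div_add_mod ((x.1 : ℕ) - (M + lk D + 1) * unit D m) ((2 * D + 1) * m)
      have f2 := Nat.div_add_mod ((x.2 : ℕ) - (M + lk D) * unit D m) ((2 * D + 1) * m)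
      rw [e1, e2, Nat.div_add_mod] at f1
      rw [e4, e3, Nat.div_add_mod] at f2
      apply Prod.ext <;> apply Fin.ext <;> omega
  rw [card_product, card_product, card_range, card_range] at h1
  calc S.card * 2 ^ D
      ≤ 2 ^ D * ((2 * D + 1) * m * ((2 * D + 1) * m)) * 2 ^ D := Nat.mul_le_mul_right _ h1
    _ = ((2 * D + 1) * unit D m) ^ 2 := by simp only [unit]; ring
    _ ≤ size D M m ^ 2 := by
        refine Nat.pow_le_pow_left (Nat.mul_le_mul_right _ ?_) 2
        simp only [slots]; omega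

theorem countSpec : CountSpec := by
  intro D M m P hm h
  classical
  let S : Finset (Fin (size D M m) × Fin (size D M m)) := univ.filter
    (fun x => ∃ v u u', rowTy D M m x.1 = .main v u ∧ colTy D M m x.2 = .main v u')
  have hS := deep_card D M m hm S (fun x hx => (mem_filter.mp hx).2)
  have hk : numCopies (pat P) (host D M m P)
      ≤ (M + 3) ^ 2 * (S.card * size D M m ^ (2 * (M + 2))) := by
    calc numCopies (pat P) (host D M m P)
        ≤ ((univ : Finset (Fin (M + 3) × Fin (M + 3))).biUnion (fun ij =>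
            univ.filter (fun p : (Fin (M + 3) → Fin (size D M m)) ×
              (Fin (M + 3) → Fin (size D M m)) => (p.1 ij.1, p.2 ij.2) ∈ S))).card := by
          unfold numCopies
          refine card_le_card (fun p hp => ?_)
          obtain ⟨i, j, v, u, u', hr, hc⟩ := h p (mem_filter.mp hp).2
          refine mem_biUnion.mpr ⟨(i, j), mem_univ _, mem_filter.mpr ⟨mem_univ _, ?_⟩⟩
          exact mem_filter.mpr ⟨mem_univ _, v, u, u', hr, hc⟩
      _ ≤ _ := by
          refine (card_biUnion_le_card_mul _ _ _ (fun ij _ => card_fixed_pair S ij.1 ij.2 _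
            (fun p hp => (mem_filter.mp hp).2))).trans ?_
          simp [pow_two]
  calc numCopies (pat P) (host D M m P) * 2 ^ D
      ≤ (M + 3) ^ 2 * (S.card * size D M m ^ (2 * (M + 2))) * 2 ^ D :=
        Nat.mul_le_mul_right _ hk
    _ = (M + 3) ^ 2 * ((S.card * 2 ^ D) * size D M m ^ (2 * (M + 2))) := by ring
    _ ≤ (M + 3) ^ 2 * (size D M m ^ 2 * size D M m ^ (2 * (M + 2))) :=
        Nat.mul_le_mul_left _ (Nat.mul_le_mul_right _ hS)
    _ = _ := by rw [← pow_add]; ring_nf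

lemma lk_le (D : ℕ) : lk D ≤ 2 + 6 * D := by
  let code : Link D → (Unit ⊕ Unit) ⊕ ((Fin (2 * D) × Bool) ⊕ Fin (2 * D)) := fun L => match L with
    | .bot => .inl (.inl ())
    | .top => .inl (.inr ())
    | .ev i b => .inr (.inl (i, b))
    | .od i => .inr (.inr i)
  refine (Fintype.card_le_of_injective code ?_).trans ?_
  · intro a b h
    cases a <;> cases b <;> simp_all [code]
  · simp only [Fintype.card_sum, Fintype.card_prod, Fintype.card_unit, Fintype.card_fin,
      Fintype.card_bool]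
    omega

/-- The distance parameter of the counterexample. -/
noncomputable def epsOf (D M : ℕ) : ℝ := 1 / (32 * ((M : ℝ) + 3) * (slots D M : ℝ) ^ 2)

lemma epsOf_pos (D M : ℕ) : 0 < epsOf D M := by
  have h : (0 : ℝ) < (slots D M : ℝ) := by
    exact_mod_cast (show 0 < slots D M by simp only [slots]; omega)
  unfold epsOf; positivity

lemma epsOf_lt_one (D M : ℕ) : epsOf D M < 1 := by
  have h : (1 : ℝ) ≤ (slots D M : ℝ) := by
    exact_mod_cast (show 1 ≤ slots D M by simp only [slots]; omega)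
  have h0 : (0 : ℝ) ≤ (M : ℝ) := Nat.cast_nonneg M
  have h2 : (1 : ℝ) ≤ (slots D M : ℝ) ^ 2 := one_le_pow₀ h
  unfold epsOf
  rw [div_lt_one (by positivity)]
  nlinarith [mul_nonneg h0 (sq_nonneg (slots D M : ℝ))]

/-- Polynomial against exponential. -/
lemma exists_depth (M : ℕ) {c C : ℝ} (hc : 0 < c) :
    ∃ D : ℕ, 1 ≤ D ∧ ((M : ℝ) + 3) ^ 2 < c * epsOf D M ^ C * (2 : ℝ) ^ D := by
  obtain ⟨N, hN⟩ := exists_nat_ge C
  set B : ℝ := 32 * ((M : ℝ) + 3) * ((M : ℝ) + 13) ^ 2 with hB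
  set A : ℝ := ((M : ℝ) + 3) ^ 2 * B ^ N with hA
  have hA0 : 0 < A := by positivity
  have hlim := tendsto_pow_const_div_const_pow_of_one_lt (2 * N) (show (1 : ℝ) < 2 by norm_num)
  have hev := (hlim.eventually (gt_mem_nhds (show (0 : ℝ) < c / A by positivity))).and
    (eventually_ge_atTop 1)
  obtain ⟨D, hD, hD1⟩ := hev.exists
  refine ⟨D, hD1, ?_⟩
  have hs1 : (1 : ℝ) ≤ (slots D M : ℝ) := by
    exact_mod_cast (show 1 ≤ slots D M by simp only [slots]; omega)
  have hs2 : (slots D M : ℝ) ≤ ((M : ℝ) + 13) * D := by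
    have := lk_le D
    have h3 : slots D M ≤ (M + 13) * D := by
      simp only [slots]
      calc M + lk D + 1 + (2 * D + 1) + 1 ≤ M * 1 + 8 * D + 5 * 1 := by omega
        _ ≤ M * D + 8 * D + 5 * D := by gcongr
        _ = (M + 13) * D := by ring
    exact_mod_cast h3
  set X : ℝ := 32 * ((M : ℝ) + 3) * (slots D M : ℝ) ^ 2 with hX
  have hX1 : 1 ≤ X := by
    have h0 : (0 : ℝ) ≤ (M : ℝ) := Nat.cast_nonneg M
    have h2 : (1 : ℝ) ≤ (slots D M : ℝ) ^ 2 := one_le_pow₀ hs1
    nlinarith [mul_nonneg h0 (sq_nonneg (slots D M : ℝ))]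
  have hXC : X ^ C ≤ B ^ N * (D : ℝ) ^ (2 * N) := by
    calc X ^ C ≤ X ^ (N : ℝ) := Real.rpow_le_rpow_of_exponent_le hX1 hN
      _ = X ^ N := Real.rpow_natCast X N
      _ ≤ (B * (D : ℝ) ^ 2) ^ N := by
          refine pow_le_pow_left₀ (by linarith) ?_ N
          rw [hX, hB, mul_assoc (32 * ((M : ℝ) + 3)), ← mul_pow]
          gcongr
      _ = _ := by rw [mul_pow, pow_mul]
  have hXC0 : 0 < X ^ C := Real.rpow_pos_of_pos (by linarith) C
  have hepsC : epsOf D M ^ C = (X ^ C)⁻¹ := by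
    rw [← Real.inv_rpow (by linarith)]
    simp [epsOf, hX]
  have h2D : (0 : ℝ) < (2 : ℝ) ^ D := by positivity
  rw [div_lt_div_iff₀ h2D hA0, mul_comm] at hD
  rw [hepsC, mul_comm c, mul_assoc, ← div_eq_inv_mul, lt_div_iff₀ hXC0]
  calc ((M : ℝ) + 3) ^ 2 * X ^ C ≤ ((M : ℝ) + 3) ^ 2 * (B ^ N * (D : ℝ) ^ (2 * N)) := by gcongr
    _ = A * (D : ℝ) ^ (2 * N) := by rw [hA]; ring
    _ < c * (2 : ℝ) ^ D := hD

/-- Farness at the level of the parameter `epsOf`. -/
lemma host_far {D M m : ℕ} {P : Fin M → Fin M → Bool}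
    (hfar : ∀ B : Fin (size D M m) → Fin (size D M m) → Bool,
      32 * (M + 3) * entryDiff (host D M m P) B < unit D m ^ 2 → ¬ IsFree (pat P) B) :
    IsFarFromFree (pat P) (host D M m P) (epsOf D M) := by
  intro B hB
  have h : unit D m ^ 2 ≤ 32 * (M + 3) * entryDiff (host D M m P) B :=
    not_lt.mp (fun hlt => hfar B hlt hB)
  have h' : ((unit D m : ℕ) : ℝ) ^ 2
      ≤ 32 * ((M : ℝ) + 3) * (entryDiff (host D M m P) B : ℝ) := by exact_mod_cast h
  have hs : (0 : ℝ) < (slots D M : ℝ) := by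
    exact_mod_cast (show 0 < slots D M by simp only [slots]; omega)
  have hsize : ((size D M m : ℕ) : ℝ) = (slots D M : ℝ) * ((unit D m : ℕ) : ℝ) := by
    simp only [size]; exact Nat.cast_mul _ _
  rw [epsOf, hsize, mul_pow, div_mul_eq_mul_div, one_mul, div_le_iff₀ (by positivity)]
  calc (slots D M : ℝ) ^ 2 * ((unit D m : ℕ) : ℝ) ^ 2
      ≤ (slots D M : ℝ) ^ 2 * (32 * ((M : ℝ) + 3) * (entryDiff (host D M m P) B : ℝ)) := by
        gcongr
    _ = _ := by ring

/-- Fewer copies than any polynomial allows. -/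
lemma host_few {D M m : ℕ} {P : Fin M → Fin M → Bool} {c C : ℝ} (hm : 1 ≤ m)
    (hsound : ∀ p, IsCopy (pat P) (host D M m P) p →
      ∃ i j v u u', rowTy D M m (p.1 i) = .main v u ∧ colTy D M m (p.2 j) = .main v u')
    (hD : ((M : ℝ) + 3) ^ 2 < c * epsOf D M ^ C * (2 : ℝ) ^ D) :
    (numCopies (pat P) (host D M m P) : ℝ)
      < c * epsOf D M ^ C * (size D M m : ℝ) ^ (2 * (M + 3)) := by
  have h := countSpec D M m P hm hsound
  have h' : (numCopies (pat P) (host D M m P) : ℝ) * (2 : ℝ) ^ D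
      ≤ ((M : ℝ) + 3) ^ 2 * (size D M m : ℝ) ^ (2 * (M + 3)) := by exact_mod_cast h
  have hn : (0 : ℝ) < (size D M m : ℝ) := by
    exact_mod_cast Nat.mul_pos (show 0 < slots D M by simp only [slots]; omega)
      (Nat.mul_pos (Nat.two_pow_pos D) hm)
  have hpow : (0 : ℝ) < (size D M m : ℝ) ^ (2 * (M + 3)) := by positivity
  refine lt_of_mul_lt_mul_right ?_ (show (0 : ℝ) ≤ (2 : ℝ) ^ D by positivity)
  calc _ ≤ _ := h'
    _ < c * epsOf D M ^ C * (2 : ℝ) ^ D * (size D M m : ℝ) ^ (2 * (M + 3)) :=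
        mul_lt_mul_of_pos_right hD hpow
    _ = _ := by ring

lemma one_le_blocks (D : ℕ) : 1 ≤ blocks D := by
  unfold blocks; omega

theorem polynomialRemoval_false (hs : SoundSpec) (hf : FarSpec) : ¬ PolynomialRemoval := by
  intro h
  have main : ∀ (M : ℕ) (P : Fin M → Fin M → Bool), Rigid P → 256000 ≤ M →
      2 * M < 1000 * 1000 → False := by
    intro M P hP hM hM'
    obtain ⟨c, C, hc, -, hrem⟩ := h (M + 3) (by omega) (pat P)
    obtain ⟨D, hD1, hD⟩ := exists_depth M (C := C) hc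
    have hm := one_le_blocks D
    have hn : 1 ≤ size D M (blocks D) := Nat.mul_pos
      (show 0 < slots D M by simp only [slots]; omega) (Nat.mul_pos (Nat.two_pow_pos D) hm)
    have hge := hrem _ hn (epsOf D M) (epsOf_pos D M) (epsOf_lt_one D M) _
      (host_far (hf D M P hD1 (by omega)))
    exact absurd hge (not_le.mpr
      (host_few hm (hs D M (blocks D) P hP hM hM' hD1 hm) hD))
  exact main (2 ^ 18 - 1) (sylvester 18) (sylvester_rigid (by norm_num)) (by norm_num)
    (by norm_num)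

/-- The failure persists for arbitrarily large matrices at a fixed distance, provided farness
holds for every sufficiently large block count. -/
theorem large_counterexamples (hs : SoundSpec)
    (hf : ∀ (D M m : ℕ) (P : Fin M → Fin M → Bool), 1 ≤ D → 1 ≤ M → blocks D ≤ m →
      ∀ B : Fin (size D M m) → Fin (size D M m) → Bool,
        32 * (M + 3) * entryDiff (host D M m P) B < unit D m ^ 2 → ¬ IsFree (pat P) B) :
    ∃ k : ℕ, 1 ≤ k ∧ ∃ H : Fin k → Fin k → Bool, ∀ c C : ℝ, 0 < c → 0 < C →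
      ∃ ε : ℝ, 0 < ε ∧ ε < 1 ∧ ∀ n₀ : ℕ, ∃ n : ℕ, n₀ ≤ n ∧ ∃ A : Fin n → Fin n → Bool,
        IsFarFromFree H A ε ∧ (numCopies H A : ℝ) < c * ε ^ C * (n : ℝ) ^ (2 * k) := by
  have main : ∀ (M : ℕ) (P : Fin M → Fin M → Bool), Rigid P → 256000 ≤ M →
      2 * M < 1000 * 1000 → ∀ c C : ℝ, 0 < c → 0 < C →
      ∃ ε : ℝ, 0 < ε ∧ ε < 1 ∧ ∀ n₀ : ℕ, ∃ n : ℕ, n₀ ≤ n ∧ ∃ A : Fin n → Fin n → Bool,
        IsFarFromFree (pat P) A ε ∧
          (numCopies (pat P) A : ℝ) < c * ε ^ C * (n : ℝ) ^ (2 * (M + 3)) := by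
    intro M P hP hM hM' c C hc _
    obtain ⟨D, hD1, hD⟩ := exists_depth M (C := C) hc
    refine ⟨epsOf D M, epsOf_pos D M, epsOf_lt_one D M, fun n₀ => ?_⟩
    have hm : 1 ≤ max n₀ (blocks D) := (one_le_blocks D).trans (le_max_right _ _)
    refine ⟨size D M (max n₀ (blocks D)), ?_, host D M (max n₀ (blocks D)) P,
      host_far (hf D M _ P hD1 (by omega) (le_max_right _ _)),
      host_few hm (hs D M _ P hP hM hM' hD1 hm) hD⟩
    calc n₀ ≤ max n₀ (blocks D) := le_max_left _ _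
      _ ≤ 2 ^ D * max n₀ (blocks D) := Nat.le_mul_of_pos_left _ (Nat.two_pow_pos D)
      _ ≤ size D M (max n₀ (blocks D)) := Nat.le_mul_of_pos_left _
          (show 0 < slots D M by simp only [slots]; omega)
  exact ⟨2 ^ 18 - 1 + 3, by omega, _,
    main (2 ^ 18 - 1) (sylvester 18) (sylvester_rigid (by norm_num)) (by norm_num) (by norm_num)⟩

theorem polynomialRemovalLarge_false (hs : SoundSpec)
    (hf : ∀ (D M m : ℕ) (P : Fin M → Fin M → Bool), 1 ≤ D → 1 ≤ M → blocks D ≤ m →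
      ∀ B : Fin (size D M m) → Fin (size D M m) → Bool,
        32 * (M + 3) * entryDiff (host D M m P) B < unit D m ^ 2 → ¬ IsFree (pat P) B) :
    ¬ PolynomialRemovalLarge := by
  intro h
  obtain ⟨k, hk, H, hH⟩ := large_counterexamples hs hf
  obtain ⟨c, C, hc, hC, hrem⟩ := h k hk H
  obtain ⟨ε, hε, hε1, hn⟩ := hH c C hc hC
  obtain ⟨n₀, hrem'⟩ := hrem ε hε hε1
  obtain ⟨n, hn0, A, hfar, hfew⟩ := hn n₀
  exact absurd (hrem' n hn0 A hfar) (not_le.mpr hfew)

end Vale.Agent.P037.Disproof
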