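import Mathlib

/-!
A pattern with no large monochromatic rectangle: the Sylvester matrix.
-/

open Finset

namespace Vale.Agent.P037.Disproof

/-- The properties of the typing pattern that are used. -/
structure Rigid {M : ℕ} (P : Fin M → Fin M → Bool) : Prop where
  mono : ∀ (X Y : Finset (Fin M)) (c : Bool), (∀ x ∈ X, ∀ y ∈ Y, P x y = c) →
    X.card * Y.card ≤ 2 * M
  rowAgree : ∀ a b : Fin M, a ≠ b → ∀ S : Finset (Fin M), (∀ y ∈ S, P a y = P b y) →
    2 * S.card ≤ M + 1
  colAgree : ∀ a b : Fin M, a ≠ b → ∀ S : Finset (Fin M), (∀ x ∈ S, P x a = P x b) →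
    2 * S.card ≤ M + 1
  rowWeight : ∀ (a : Fin M) (c : Bool) (S : Finset (Fin M)), (∀ y ∈ S, P a y = c) →
    2 * S.card ≤ M + 1
  colWeight : ∀ (a : Fin M) (c : Bool) (S : Finset (Fin M)), (∀ x ∈ S, P x a = c) →
    2 * S.card ≤ M + 1

variable {m : ℕ}

/-- The character of `x` at `y`. -/
def chi (x y : Fin m → Bool) : ℤ := ∏ i, if x i && y i then -1 else 1

lemma chi_comm (x y : Fin m → Bool) : chi x y = chi y x := by
  simp [chi, Bool.and_comm]

lemma chi_sq (x y : Fin m → Bool) : chi x y * chi x y = 1 := by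
  unfold chi
  rw [← prod_mul_distrib]
  apply prod_eq_one
  intro i _
  split <;> norm_num

lemma chi_cases (x y : Fin m → Bool) : chi x y = 1 ∨ chi x y = -1 :=
  mul_self_eq_one_iff.mp (chi_sq x y)

lemma orth {a b : Fin m → Bool} (h : a ≠ b) : ∑ y, chi a y * chi b y = 0 := by
  obtain ⟨i, hi⟩ := Function.ne_iff.mp h
  have e : ∑ y, chi a y * chi b y
      = ∏ j : Fin m, ∑ c : Bool,
          ((if a j && c then (-1 : ℤ) else 1) * (if b j && c then -1 else 1)) := by
    rw [Fintype.prod_sum]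
    exact sum_congr rfl fun y _ => prod_mul_distrib.symm
  rw [e]
  apply prod_eq_zero (mem_univ i)
  revert hi
  cases a i <;> cases b i <;> simp

lemma card_space : Fintype.card (Fin m → Bool) = 2 ^ m := by simp

lemma agree_bound {a b : Fin m → Bool} (h : a ≠ b) (S : Finset (Fin m → Bool)) (c : ℤ)
    (hc : c = 1 ∨ c = -1) (hS : ∀ y ∈ S, chi a y * chi b y = c) : 2 * S.card ≤ 2 ^ m := by
  have h0 : ∑ y, (1 + c * (chi a y * chi b y)) = (2 : ℤ) ^ m := by
    simp [sum_add_distrib, ← mul_sum, orth h]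
  have h1 : ∑ y ∈ S, (1 + c * (chi a y * chi b y)) = 2 * (S.card : ℤ) := by
    rw [sum_congr rfl (fun y hy => by rw [hS y hy])]
    rcases hc with rfl | rfl <;> simp [mul_comm]
  have h2 : ∑ y ∈ S, (1 + c * (chi a y * chi b y)) ≤ ∑ y, (1 + c * (chi a y * chi b y)) := by
    apply sum_le_sum_of_subset_of_nonneg (subset_univ _)
    intro y _ _
    rcases hc with rfl | rfl <;> rcases chi_cases a y with p | p <;>
      rcases chi_cases b y with q | q <;> rw [p, q] <;> norm_num
  have : (2 * S.card : ℤ) ≤ (2 : ℤ) ^ m := by linarith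
  exact_mod_cast this

lemma rect_bound (X Y : Finset (Fin m → Bool)) (c : ℤ) (hc : c = 1 ∨ c = -1)
    (h : ∀ x ∈ X, ∀ y ∈ Y, chi x y = c) : X.card * Y.card ≤ 2 ^ m := by
  have h0 : ∑ x, (∑ y ∈ Y, chi x y) ^ 2 = (2 : ℤ) ^ m * Y.card := by
    simp_rw [pow_two, sum_mul_sum]
    rw [sum_comm]
    have inner : ∀ y ∈ Y, (∑ x, ∑ z ∈ Y, chi x y * chi x z) = (2 : ℤ) ^ m := by
      intro y hy
      rw [sum_comm, sum_eq_single y]
      · simp [chi_sq]
      · intro z _ hz
        simp_rw [chi_comm _ y, chi_comm _ z]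
        exact orth (Ne.symm hz)
      · intro hn; exact absurd hy hn
    rw [sum_congr rfl inner]
    simp [mul_comm]
  have h1 : ∑ x ∈ X, (∑ y ∈ Y, chi x y) ^ 2 = (X.card : ℤ) * (Y.card : ℤ) ^ 2 := by
    have : ∀ x ∈ X, (∑ y ∈ Y, chi x y) ^ 2 = (Y.card : ℤ) ^ 2 := by
      intro x hx
      rw [sum_congr rfl (h x hx)]
      rcases hc with rfl | rfl <;> simp
    rw [sum_congr rfl this]; simp
  have h2 : ∑ x ∈ X, (∑ y ∈ Y, chi x y) ^ 2 ≤ ∑ x, (∑ y ∈ Y, chi x y) ^ 2 :=
    sum_le_sum_of_subset_of_nonneg (subset_univ _) (fun _ _ _ => sq_nonneg _)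
  rcases Nat.eq_zero_or_pos Y.card with hY | hY
  · simp [hY]
  · have : (X.card : ℤ) * Y.card * Y.card ≤ (2 : ℤ) ^ m * Y.card := by nlinarith
    have := le_of_mul_le_mul_right this (by exact_mod_cast hY)
    exact_mod_cast this

/-- The nonzero vectors, enumerated. -/
noncomputable def vec (m : ℕ) (x : Fin (2 ^ m - 1)) : Fin m → Bool :=
  ((Fintype.equivFinOfCardEq (α := {y : Fin m → Bool // y ≠ fun _ => false})
    (by simp [Fintype.card_subtype_compl])).symm x).1

lemma vec_injective (m : ℕ) : Function.Injective (vec m) :=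
  fun _ _ h => (Equiv.injective _) (Subtype.ext h)

lemma vec_ne (m : ℕ) (x : Fin (2 ^ m - 1)) : vec m x ≠ fun _ => false :=
  ((Fintype.equivFinOfCardEq (α := {y : Fin m → Bool // y ≠ fun _ => false})
    (by simp [Fintype.card_subtype_compl])).symm x).2

/-- The pattern. -/
noncomputable def sylvester (m : ℕ) (x y : Fin (2 ^ m - 1)) : Bool :=
  decide (chi (vec m x) (vec m y) = 1)

lemma sylvester_eq (m : ℕ) (x y : Fin (2 ^ m - 1)) (c : Bool) (h : sylvester m x y = c) :
    chi (vec m x) (vec m y) = if c then 1 else -1 := by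
  rcases chi_cases (vec m x) (vec m y) with p | p <;> subst h <;> simp [sylvester, p]

lemma sylvester_rigid {m : ℕ} (hm : 1 ≤ m) : Rigid (sylvester m) := by
  have h2 : 2 ≤ 2 ^ m := by simpa using Nat.pow_le_pow_right (n := 2) (by norm_num) hm
  have hM : 2 ^ m = 2 ^ m - 1 + 1 := by omega
  let e : Fin (2 ^ m - 1) ↪ (Fin m → Bool) := ⟨vec m, vec_injective m⟩
  have hone : ∀ y : Fin m → Bool, chi (fun _ => false) y = 1 := fun y => by simp [chi]
  have sgn : ∀ c : Bool, (if c then (1 : ℤ) else -1) = 1 ∨ (if c then (1 : ℤ) else -1) = -1 :=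
    fun c => by cases c <;> simp
  have row : ∀ a b : Fin (2 ^ m - 1), a ≠ b → ∀ S : Finset (Fin (2 ^ m - 1)),
      (∀ y ∈ S, sylvester m a y = sylvester m b y) → 2 * S.card ≤ 2 ^ m := by
    intro a b hab S hS
    have := agree_bound (fun h => hab (vec_injective m h)) (S.map e) 1 (Or.inl rfl) ?_
    · simpa using this
    · intro y hy
      obtain ⟨y, hy', rfl⟩ := mem_map.mp hy
      show chi (vec m a) (vec m y) * chi (vec m b) (vec m y) = 1
      rw [sylvester_eq m a y _ rfl, sylvester_eq m b y _ rfl, hS y hy']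
      split <;> norm_num
  have wt : ∀ (a : Fin (2 ^ m - 1)) (c : Bool) (S : Finset (Fin (2 ^ m - 1))),
      (∀ y ∈ S, sylvester m a y = c) → 2 * S.card ≤ 2 ^ m := by
    intro a c S hS
    have := agree_bound (vec_ne m a) (S.map e) _ (sgn c) ?_
    · simpa using this
    · intro y hy
      obtain ⟨y, hy', rfl⟩ := mem_map.mp hy
      show chi (vec m a) (vec m y) * chi (fun _ => false) (vec m y) = _
      rw [hone, mul_one, sylvester_eq m a y c (hS y hy')]
  have hsym : ∀ x y, sylvester m x y = sylvester m y x := by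
    intro x y; simp [sylvester, chi_comm]
  refine ⟨?_, ?_, ?_, ?_, ?_⟩
  · intro X Y c h
    have := rect_bound (X.map e) (Y.map e) _ (sgn c) (by
      intro x hx y hy
      obtain ⟨x, hx', rfl⟩ := mem_map.mp hx
      obtain ⟨y, hy', rfl⟩ := mem_map.mp hy
      exact sylvester_eq m x y c (h x hx' y hy'))
    simp at this
    omega
  · intro a b hab S hS
    have := row a b hab S hS
    omega
  · intro a b hab S hS
    have := row a b hab S (fun y hy => by rw [hsym a y, hsym b y]; exact hS y hy)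
    omega
  · intro a c S hS
    have := wt a c S hS
    omega
  · intro a c S hS
    have := wt a c S (fun y hy => by rw [hsym a y]; exact hS y hy)
    omega

end Vale.Agent.P037.Disproof
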