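import Vale.Agent.P037.Disproof.Tree

/-!
The host matrix and the pattern.
-/

open Finset

namespace Vale.Agent.P037.Disproof

/-- The links of the chain. -/
inductive Link (D : ℕ) where
  | bot
  | top
  | ev (i : Fin (2 * D)) (b : Bool)
  | od (i : Fin (2 * D))
deriving DecidableEq, Fintype

/-- Row types. -/
inductive RTy (D M : ℕ) where
  | sig (x : Fin M)
  | rho (L : Link D)
  | zero
  | main (v u : ℕ)
  | one

/-- Column types. -/
inductive CTy (D M : ℕ) where
  | tau (y : Fin M)
  | kap (L : Link D)
  | main (w u : ℕ)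
  | dd

variable {D M : ℕ}

/-- Rows seen by the column class of a link. -/
def zMem : Link D → RTy D M → Bool
  | .bot, .zero => true
  | .bot, .main _ u => decide (u = 0)
  | .top, .one => true
  | .top, .main _ u => decide (u = 2 * D)
  | .ev i b, .main v u => decide ((u = (i : ℕ) ∧ bitAt D i v = b) ∨ u = (i : ℕ) + 1)
  | .od _, .zero => true
  | .od i, .main _ u => decide (u = (i : ℕ) + 1)
  | _, _ => false

/-- Columns seen by the row class of a link. -/
def wMem : Link D → CTy D M → Bool
  | .bot, .dd => true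
  | .bot, .main _ u => decide (u = 0)
  | .top, .dd => true
  | .top, .main _ u => decide (u = 2 * D)
  | .ev _ _, .dd => true
  | .ev i b, .main w u => decide (u = (i : ℕ) ∧ bitAt D i w = b)
  | .od i, .main _ u => decide (u = (i : ℕ) ∨ u = (i : ℕ) + 1)
  | _, _ => false

/-- The entry of the host matrix at given types. -/
def cell (P : Fin M → Fin M → Bool) : RTy D M → CTy D M → Bool
  | .sig x, .tau y => P x y
  | .sig _, .kap _ => false
  | .sig _, .main _ _ => true
  | .sig _, .dd => true
  | .rho _, .tau _ => false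
  | .rho L, .kap L' => decide (L = L')
  | .rho L, c => wMem L c
  | .zero, .tau _ => true
  | .zero, .kap L => zMem (M := M) L .zero
  | .zero, .main _ _ => false
  | .zero, .dd => false
  | .main _ _, .tau _ => true
  | .main v u, .kap L => zMem (M := M) L (.main v u)
  | .main v u, .main w u' => decide (v ≠ w ∧ 2 * sh D v w < u + u')
  | .main _ _, .dd => false
  | .one, .tau _ => true
  | .one, .kap L => zMem (M := M) L .one
  | .one, .main _ _ => true
  | .one, .dd => false

/-- The pattern. -/
def pat (P : Fin M → Fin M → Bool) (i j : Fin (M + 3)) : Bool :=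
  if hi : (i : ℕ) < M then
    if hj : (j : ℕ) < M then P ⟨i, hi⟩ ⟨j, hj⟩ else decide ((j : ℕ) ≠ M)
  else
    if (j : ℕ) < M then decide ((i : ℕ) ≠ M)
    else decide (¬ (((i : ℕ) = M + 1 ∧ (j : ℕ) ≠ M) ∨ ((i : ℕ) = M + 2 ∧ (j : ℕ) = M + 2)))

lemma zLinks_card (r : RTy D M) (v u : ℕ) (hr : r = .main v u) :
    (univ.filter (fun L : Link D => zMem L r = true)).card ≤ 6 := by
  subst hr
  let code : Link D → ℕ := fun L => match L with
    | .bot => 0
    | .top => 1
    | .ev i b => if (i : ℕ) = u then 2 else (if b then 3 else 4)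
    | .od _ => 5
  calc (univ.filter (fun L : Link D => zMem L (RTy.main (M := M) v u) = true)).card
      ≤ (range 6).card := by
        refine card_le_card_of_injOn code (fun L _ => ?_) ?_
        · cases L with
          | ev i b => simp [code]; split <;> [omega; split <;> omega]
          | _ => simp [code]
        · intro a ha b hb hab
          simp only [coe_filter, Set.mem_setOf_eq, mem_univ, true_and] at ha hb
          cases a <;> cases b <;> simp_all [zMem, code, Fin.ext_iff] <;> grind
    _ = 6 := card_range 6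

lemma wLinks_card (w u : ℕ) :
    (univ.filter (fun L : Link D => wMem L (CTy.main (M := M) w u) = true)).card ≤ 6 := by
  let code : Link D → ℕ := fun L => match L with
    | .bot => 0
    | .top => 1
    | .ev _ _ => 2
    | .od i => if (i : ℕ) = u then 3 else 4
  calc (univ.filter (fun L : Link D => wMem L (CTy.main (M := M) w u) = true)).card
      ≤ (range 6).card := by
        refine card_le_card_of_injOn code (fun L _ => ?_) ?_
        · cases L with
          | od i => simp [code]; split <;> omega
          | _ => simp [code]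
        · intro a ha b hb hab
          simp only [coe_filter, Set.mem_setOf_eq, mem_univ, true_and] at ha hb
          cases a <;> cases b <;> simp_all [wMem, code, Fin.ext_iff] <;> grind
    _ = 6 := card_range 6

/-- Number of links. -/
abbrev lk (D : ℕ) : ℕ := Fintype.card (Link D)

/-- Size of one slot. -/
abbrev unit (D m : ℕ) : ℕ := 2 ^ D * m

/-- Number of slots. -/
abbrev slots (D M : ℕ) : ℕ := M + lk D + 1 + (2 * D + 1) + 1

/-- Size of the matrix. -/
abbrev size (D M m : ℕ) : ℕ := slots D M * unit D m

variable (D M) (m : ℕ)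

/-- Type of a row. -/
noncomputable def rowTy (p : ℕ) : RTy D M :=
  if h : p / unit D m < M then .sig ⟨_, h⟩
  else if h : p / unit D m - M < lk D then .rho ((Fintype.equivFin (Link D)).symm ⟨_, h⟩)
  else if p / unit D m = M + lk D then .zero
  else if p < (M + lk D + 1 + (2 * D + 1)) * unit D m then
    .main ((p - (M + lk D + 1) * unit D m) / (2 * D + 1) / m)
      ((p - (M + lk D + 1) * unit D m) % (2 * D + 1))
  else .one

/-- Type of a column. -/
noncomputable def colTy (p : ℕ) : CTy D M :=
  if h : p / unit D m < M then .tau ⟨_, h⟩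
  else if h : p / unit D m - M < lk D then .kap ((Fintype.equivFin (Link D)).symm ⟨_, h⟩)
  else if p < (M + lk D + (2 * D + 1)) * unit D m then
    .main ((p - (M + lk D) * unit D m) / (2 * D + 1) / m)
      ((p - (M + lk D) * unit D m) % (2 * D + 1))
  else .dd

/-- The host matrix. -/
noncomputable def host (P : Fin M → Fin M → Bool) (p q : Fin (size D M m)) : Bool :=
  cell P (rowTy D M m p) (colTy D M m q)

variable {D M m}

lemma rowTy_main {p v u : ℕ} (hm : 1 ≤ m) (h : rowTy D M m p = .main v u) :
    (M + lk D + 1) * unit D m ≤ p ∧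
      v = (p - (M + lk D + 1) * unit D m) / (2 * D + 1) / m ∧ v < 2 ^ D ∧ u < 2 * D + 1 := by
  have hU : 0 < unit D m := Nat.mul_pos (Nat.two_pow_pos D) hm
  unfold rowTy at h
  split_ifs at h with h1 h2 h3 h4
  injection h with hv hu
  have hlo : M + lk D + 1 ≤ p / unit D m := by omega
  have hlo' := (Nat.le_div_iff_mul_le hU).mp hlo
  refine ⟨hlo', hv.symm, ?_, hu ▸ Nat.mod_lt _ (by omega)⟩
  rw [← hv, Nat.div_div_eq_div_mul, Nat.div_lt_iff_lt_mul (Nat.mul_pos (by omega) hm)]
  have e1 : (M + lk D + 1 + (2 * D + 1)) * unit D m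
      = (M + lk D + 1) * unit D m + (2 * D + 1) * unit D m := by ring
  have e2 : 2 ^ D * ((2 * D + 1) * m) = (2 * D + 1) * unit D m := by simp [unit]; ring
  omega

lemma colTy_main {p v u : ℕ} (hm : 1 ≤ m) (h : colTy D M m p = .main v u) :
    (M + lk D) * unit D m ≤ p ∧
      v = (p - (M + lk D) * unit D m) / (2 * D + 1) / m ∧ v < 2 ^ D ∧ u < 2 * D + 1 := by
  have hU : 0 < unit D m := Nat.mul_pos (Nat.two_pow_pos D) hm
  unfold colTy at h
  split_ifs at h with h1 h2 h3
  injection h with hv hu
  have hlo : M + lk D ≤ p / unit D m := by omega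
  have hlo' := (Nat.le_div_iff_mul_le hU).mp hlo
  refine ⟨hlo', hv.symm, ?_, hu ▸ Nat.mod_lt _ (by omega)⟩
  rw [← hv, Nat.div_div_eq_div_mul, Nat.div_lt_iff_lt_mul (Nat.mul_pos (by omega) hm)]
  have e1 : (M + lk D + (2 * D + 1)) * unit D m
      = (M + lk D) * unit D m + (2 * D + 1) * unit D m := by ring
  have e2 : 2 ^ D * ((2 * D + 1) * m) = (2 * D + 1) * unit D m := by simp [unit]; ring
  omega

lemma rowTy_main_mono {p p' v v' u u' : ℕ} (hm : 1 ≤ m) (hp : p ≤ p')
    (h : rowTy D M m p = .main v u) (h' : rowTy D M m p' = .main v' u') : v ≤ v' := by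
  obtain ⟨-, rfl, -, -⟩ := rowTy_main hm h
  obtain ⟨-, rfl, -, -⟩ := rowTy_main hm h'
  exact Nat.div_le_div_right (Nat.div_le_div_right (by omega))

lemma colTy_main_mono {p p' v v' u u' : ℕ} (hm : 1 ≤ m) (hp : p ≤ p')
    (h : colTy D M m p = .main v u) (h' : colTy D M m p' = .main v' u') : v ≤ v' := by
  obtain ⟨-, rfl, -, -⟩ := colTy_main hm h
  obtain ⟨-, rfl, -, -⟩ := colTy_main hm h'
  exact Nat.div_le_div_right (Nat.div_le_div_right (by omega))

end Vale.Agent.P037.Disproof
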