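import Vale.Agent.P037.Defs
import Vale.Agent.P037.Disproof.Hadamard
import Vale.Agent.P037.Disproof.Layout

/-!
The statements of the modules of the disproof of polynomial ordered matrix removal.
-/

open Finset

namespace Vale.Agent.P037.Disproof

/-- The polynomial removal statement for every pattern. -/
def PolynomialRemoval : Prop :=
  ∀ k : ℕ, 1 ≤ k → ∀ H : Fin k → Fin k → Bool, ∃ c C : ℝ, 0 < c ∧ 0 < C ∧
    ∀ n : ℕ, 1 ≤ n → ∀ ε : ℝ, 0 < ε → ε < 1 → ∀ A : Fin n → Fin n → Bool,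
      IsFarFromFree H A ε → c * ε ^ C * (n : ℝ) ^ (2 * k) ≤ (numCopies H A : ℝ)

/-- The same for all sufficiently large matrices only. -/
def PolynomialRemovalLarge : Prop :=
  ∀ k : ℕ, 1 ≤ k → ∀ H : Fin k → Fin k → Bool, ∃ c C : ℝ, 0 < c ∧ 0 < C ∧
    ∀ ε : ℝ, 0 < ε → ε < 1 → ∃ n₀ : ℕ, ∀ n : ℕ, n₀ ≤ n → ∀ A : Fin n → Fin n → Bool,
      IsFarFromFree H A ε → c * ε ^ C * (n : ℝ) ^ (2 * k) ≤ (numCopies H A : ℝ)

/-- Number of colourings of the class pairs of one pair of blocks. -/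
abbrev colours (D : ℕ) : ℕ := Fintype.card (Fin (2 * D + 1) → Fin (2 * D + 1) → Bool)

/-- The number of blocks in one leaf. -/
def blocks (D : ℕ) : ℕ := 2 * (colours D ^ (colours D + 1) + colours D + 2)

/-- Every copy uses a row and a column in the same leaf. -/
def SoundSpec : Prop :=
  ∀ (D M m : ℕ) (P : Fin M → Fin M → Bool), Rigid P → 256000 ≤ M → 2 * M < 1000 * 1000 →
    1 ≤ D → 1 ≤ m →
      ∀ p, IsCopy (pat P) (host D M m P) p →
        ∃ i j v u u', rowTy D M m (p.1 i) = .main v u ∧ colTy D M m (p.2 j) = .main v u'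

/-- Few copies. -/
def CountSpec : Prop :=
  ∀ (D M m : ℕ) (P : Fin M → Fin M → Bool), 1 ≤ m →
    (∀ p, IsCopy (pat P) (host D M m P) p →
      ∃ i j v u u', rowTy D M m (p.1 i) = .main v u ∧ colTy D M m (p.2 j) = .main v u') →
    numCopies (pat P) (host D M m P) * 2 ^ D ≤ (M + 3) ^ 2 * size D M m ^ (2 * (M + 3))

/-- Every nearby matrix contains a copy. -/
def FarSpec : Prop :=
  ∀ (D M : ℕ) (P : Fin M → Fin M → Bool), 1 ≤ D → 1 ≤ M →
    ∀ B : Fin (size D M (blocks D)) → Fin (size D M (blocks D)) → Bool,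
      32 * (M + 3) * entryDiff (host D M (blocks D) P) B < unit D (blocks D) ^ 2 →
        ¬ IsFree (pat P) B

end Vale.Agent.P037.Disproof
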