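import Vale.Agent.P037.Disproof.Pick
import Vale.Agent.P037.Disproof.Spec

/-!
Every matrix close to the host matrix contains a copy of the pattern.
-/

open Finset

namespace Vale.Agent.P037.Disproof

variable {D M m : ℕ}

lemma pigeon {κ : Type*} [Fintype κ] {α : Type*} [LinearOrder α] (G : Finset α)
    (col : α → α → κ) (hG : Fintype.card κ ^ (Fintype.card κ + 1) + Fintype.card κ + 2 ≤ G.card) :
    ∃ i1 ∈ G, ∃ i2 ∈ G, ∃ j1 ∈ G, ∃ j2 ∈ G, i1 < i2 ∧ j1 < j2 ∧
      col i1 j2 = col i1 j1 ∧ col i2 j1 = col i1 j1 ∧ col i2 j2 = col i1 j1 := by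
  classical
  obtain ⟨X, hX, hXc⟩ := exists_subset_card_eq (s := G) (n := Fintype.card κ + 1) (by omega)
  obtain ⟨a, ha, b, hb, hab, heq⟩ := exists_ne_map_eq_of_card_lt_of_maps_to (s := G)
    (t := (univ : Finset (↥X → κ))) (f := fun j => fun x : ↥X => col x j)
    (by rw [card_univ, Fintype.card_fun, Fintype.card_coe, hXc]; omega)
    (fun _ _ => mem_univ _)
  obtain ⟨c, hc, d, hd, hcd, heq'⟩ := exists_ne_map_eq_of_card_lt_of_maps_to (s := X)
    (t := (univ : Finset κ)) (f := fun x => col x a) (by rw [card_univ, hXc]; omega)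
    (fun _ _ => mem_univ _)
  have e1 : col c b = col c a := (congrFun heq ⟨c, hc⟩).symm
  have e2 : col d b = col d a := (congrFun heq ⟨d, hd⟩).symm
  rcases lt_or_gt_of_ne hcd with h1 | h1 <;> rcases lt_or_gt_of_ne hab with h2 | h2
  · exact ⟨c, hX hc, d, hX hd, a, ha, b, hb, h1, h2, by grind⟩
  · exact ⟨c, hX hc, d, hX hd, b, hb, a, ha, h1, h2, by grind⟩
  · exact ⟨d, hX hd, c, hX hc, a, ha, b, hb, h1, h2, by grind⟩
  · exact ⟨d, hX hd, c, hX hc, b, hb, a, ha, h1, h2, by grind⟩

/-- Index of a link. -/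
noncomputable def linkIdx (L : Link D) : ℕ := Fintype.equivFin (Link D) L

lemma linkIdx_lt (L : Link D) : linkIdx L < lk D := (Fintype.equivFin (Link D) L).isLt

lemma div_unit {p s : ℕ} (h1 : s * unit D m ≤ p) (h2 : p < (s + 1) * unit D m) :
    p / unit D m = s := Nat.div_eq_of_lt_le h1 h2

lemma rowTy_sig {p : ℕ} (x : Fin M) (h1 : (x : ℕ) * unit D m ≤ p)
    (h2 : p < ((x : ℕ) + 1) * unit D m) : rowTy D M m p = .sig x := by
  have h := div_unit h1 h2
  simp [rowTy, h]

lemma colTy_tau {p : ℕ} (x : Fin M) (h1 : (x : ℕ) * unit D m ≤ p)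
    (h2 : p < ((x : ℕ) + 1) * unit D m) : colTy D M m p = .tau x := by
  have h := div_unit h1 h2
  simp [colTy, h]

lemma rowTy_rho {p : ℕ} (L : Link D) (h1 : (M + linkIdx L) * unit D m ≤ p)
    (h2 : p < (M + linkIdx L + 1) * unit D m) : rowTy D M m p = .rho L := by
  have h := div_unit h1 h2
  have := linkIdx_lt L
  unfold rowTy
  rw [dif_neg (by omega), dif_pos (by omega)]
  simp [h, linkIdx]

lemma colTy_kap {p : ℕ} (L : Link D) (h1 : (M + linkIdx L) * unit D m ≤ p)
    (h2 : p < (M + linkIdx L + 1) * unit D m) : colTy D M m p = .kap L := by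
  have h := div_unit h1 h2
  have := linkIdx_lt L
  unfold colTy
  rw [dif_neg (by omega), dif_pos (by omega)]
  simp [h, linkIdx]

lemma rowTy_zero {p : ℕ} (h1 : (M + lk D) * unit D m ≤ p)
    (h2 : p < (M + lk D + 1) * unit D m) : rowTy D M m p = .zero := by
  have h := div_unit h1 h2
  unfold rowTy
  rw [dif_neg (by omega), dif_neg (by omega), if_pos h]

lemma rowTy_one {p : ℕ} (h1 : (M + lk D + 1 + (2 * D + 1)) * unit D m ≤ p)
    (h2 : p < (M + lk D + 1 + (2 * D + 1) + 1) * unit D m) : rowTy D M m p = .one := by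
  have h := div_unit h1 h2
  unfold rowTy
  rw [dif_neg (by omega), dif_neg (by omega), if_neg (by omega), if_neg (by omega)]

lemma colTy_dd {p : ℕ} (h1 : (M + lk D + (2 * D + 1)) * unit D m ≤ p)
    (h2 : p < (M + lk D + (2 * D + 1) + 1) * unit D m) : colTy D M m p = .dd := by
  have h := div_unit h1 h2
  unfold colTy
  rw [dif_neg (by omega), dif_neg (by omega), if_neg (by omega)]

lemma block_lt {v i u : ℕ} (hv : v < 2 ^ D) (hi : i < m) (hu : u < 2 * D + 1) :
    (v * m + i) * (2 * D + 1) + u < (2 * D + 1) * unit D m := by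
  have h1 : v * m + i + 1 ≤ unit D m := by
    have := Nat.mul_le_mul_right m (show v + 1 ≤ 2 ^ D from hv)
    rw [add_one_mul] at this
    show _ ≤ 2 ^ D * m
    omega
  have := Nat.mul_le_mul_right (2 * D + 1) h1
  rw [add_one_mul, mul_comm (unit D m)] at this
  omega

/-- Position of a main row. -/
def rowPos (D M m v i u : ℕ) : ℕ :=
  (M + lk D + 1) * unit D m + ((v * m + i) * (2 * D + 1) + u)

/-- Position of a main column. -/
def colPos (D M m v i u : ℕ) : ℕ :=
  (M + lk D) * unit D m + ((v * m + i) * (2 * D + 1) + u)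

lemma block_decode {v i u : ℕ} (hi : i < m) (hu : u < 2 * D + 1) :
    ((v * m + i) * (2 * D + 1) + u) % (2 * D + 1) = u ∧
      ((v * m + i) * (2 * D + 1) + u) / (2 * D + 1) = v * m + i ∧ (v * m + i) / m = v := by
  refine ⟨?_, Nat.div_eq_of_lt_le (by omega) (by rw [add_one_mul]; omega),
    Nat.div_eq_of_lt_le (by omega) (by rw [add_one_mul]; omega)⟩
  rw [Nat.mul_comm (v * m + i), Nat.mul_add_mod, Nat.mod_eq_of_lt hu]

lemma rowPos_lt {v i u : ℕ} (hv : v < 2 ^ D) (hi : i < m) (hu : u < 2 * D + 1) :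
    rowPos D M m v i u < (M + lk D + 1 + (2 * D + 1)) * unit D m := by
  have := block_lt hv hi hu
  rw [add_mul (M + lk D + 1)]
  unfold rowPos
  omega

lemma colPos_lt {v i u : ℕ} (hv : v < 2 ^ D) (hi : i < m) (hu : u < 2 * D + 1) :
    colPos D M m v i u < (M + lk D + (2 * D + 1)) * unit D m := by
  have := block_lt hv hi hu
  rw [add_mul (M + lk D)]
  unfold colPos
  omega

lemma rowTy_rowPos {v i u : ℕ} (hv : v < 2 ^ D) (hi : i < m) (hu : u < 2 * D + 1) :
    rowTy D M m (rowPos D M m v i u) = .main v u := by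
  have hU : 0 < unit D m := Nat.mul_pos (Nat.two_pow_pos D) (by omega)
  have hq : M + lk D + 1 ≤ rowPos D M m v i u / unit D m :=
    (Nat.le_div_iff_mul_le hU).mpr (by unfold rowPos; omega)
  obtain ⟨e1, e2, e3⟩ := block_decode (D := D) (v := v) hi hu
  unfold rowTy
  rw [dif_neg (by omega), dif_neg (by omega), if_neg (by omega), if_pos (rowPos_lt hv hi hu)]
  simp [rowPos, e1, e2, e3]

lemma colTy_colPos {v i u : ℕ} (hv : v < 2 ^ D) (hi : i < m) (hu : u < 2 * D + 1) :
    colTy D M m (colPos D M m v i u) = .main v u := by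
  have hU : 0 < unit D m := Nat.mul_pos (Nat.two_pow_pos D) (by omega)
  have hq : M + lk D ≤ colPos D M m v i u / unit D m :=
    (Nat.le_div_iff_mul_le hU).mpr (by unfold colPos; omega)
  obtain ⟨e1, e2, e3⟩ := block_decode (D := D) (v := v) hi hu
  unfold colTy
  rw [dif_neg (by omega), dif_neg (by omega), if_pos (colPos_lt hv hi hu)]
  simp [colPos, e1, e2, e3]

lemma pos_strict {v i j u w : ℕ} (h : i < j) (hu : u < 2 * D + 1) :
    (v * m + i) * (2 * D + 1) + u < (v * m + j) * (2 * D + 1) + w := by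
  have := Nat.mul_le_mul_right (2 * D + 1) (show v * m + i + 1 ≤ v * m + j by omega)
  rw [add_one_mul] at this
  omega

lemma slot_le_size {s : ℕ} (h : s + 1 ≤ slots D M) : (s + 1) * unit D m ≤ size D M m :=
  Nat.mul_le_mul_right _ h

/-- A core with good elements and the right entries gives a copy. -/
lemma copy_of_core (P : Fin M → Fin M → Bool) (hM : 1 ≤ M)
    (B : Fin (size D M m) → Fin (size D M m) → Bool)
    (hB : 32 * (M + 3) * entryDiff (host D M m P) B < unit D m ^ 2) (L : Link D)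
    (a b c d : Fin (size D M m))
    (hga : Good (unit D m) (M + 3) (host D M m P) B a)
    (hgb : Good (unit D m) (M + 3) (host D M m P) B b)
    (hgc : Good (unit D m) (M + 3) (tp (host D M m P)) (tp B) c)
    (hgd : Good (unit D m) (M + 3) (tp (host D M m P)) (tp B) d)
    (hab : a < b) (hcd : c < d)
    (ha : (M + lk D) * unit D m ≤ (a : ℕ)) (hc : (M + lk D) * unit D m ≤ (c : ℕ))
    (hat : ∀ y, cell P (rowTy D M m a) (.tau y) = true)
    (hbt : ∀ y, cell P (rowTy D M m b) (.tau y) = true)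
    (hct : ∀ x, cell P (.sig x) (colTy D M m c) = true)
    (hdt : ∀ x, cell P (.sig x) (colTy D M m d) = true)
    (hak : cell P (rowTy D M m a) (.kap L) = true) (hbk : cell P (rowTy D M m b) (.kap L) = true)
    (hcr : cell P (.rho L) (colTy D M m c) = true) (hdr : cell P (.rho L) (colTy D M m d) = true)
    (hac : B a c = false) (had : B a d = false) (hbc : B b c = true) (hbd : B b d = false) :
    ¬ IsFree (pat P) B := by
  classical
  set A := host D M m P with hA
  have hL := linkIdx_lt L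
  let slot : Fin (M + 1) → ℕ := fun i => if (i : ℕ) < M then i else M + linkIdx L
  have hslot : ∀ i, slot i + 1 ≤ M + lk D := fun i => by
    simp only [slot]; split <;> omega
  have hslot' : ∀ i, slot i + 1 ≤ slots D M := fun i => by
    have := hslot i; unfold slots; omega
  choose rs hr1 hr2 hr3 hr4 using fun i : Fin (M + 1) =>
    pick (unit D m) (M + 3) A B hB {c, d} ((card_insert_le _ _).trans (by simp))
      (by simp [hgc, hgd]) (slot i) (slot_le_size (hslot' i))
  let f : Fin (M + 3) → Fin (size D M m) := fun i =>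
    if h : (i : ℕ) < M + 1 then rs ⟨i, h⟩ else if (i : ℕ) = M + 1 then a else b
  have hfgood : ∀ q ∈ (univ : Finset (Fin (M + 3))).image f,
      Good (unit D m) (M + 3) (tp (tp A)) (tp (tp B)) q := by
    intro q hq
    obtain ⟨i, -, rfl⟩ := mem_image.mp hq
    show Good (unit D m) (M + 3) A B (f i)
    simp only [f]
    split
    · exact hr3 _
    · split <;> assumption
  choose cs hs1 hs2 hs3 hs4 using fun i : Fin (M + 1) =>
    pick (unit D m) (M + 3) (tp A) (tp B) (by rw [entryDiff_tp]; exact hB)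
      ((univ : Finset (Fin (M + 3))).image f) (card_image_le.trans (by simp)) hfgood (slot i)
      (slot_le_size (hslot' i))
  let g : Fin (M + 3) → Fin (size D M m) := fun i =>
    if h : (i : ℕ) < M + 1 then cs ⟨i, h⟩ else if (i : ℕ) = M + 1 then c else d
  intro hfree
  refine hfree (f, g) ⟨?_, ?_, ?_⟩
  · intro i j hij
    have hij' : (i : ℕ) < (j : ℕ) := hij
    simp only [f]
    by_cases hi : (i : ℕ) < M + 1
    · rw [dif_pos hi]
      have h2 := hr2 ⟨i, hi⟩
      have hsl := Nat.mul_le_mul_right (unit D m) (hslot ⟨i, hi⟩)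
      by_cases hj : (j : ℕ) < M + 1
      · rw [dif_pos hj]
        have h1 := hr1 ⟨j, hj⟩
        have := Nat.mul_le_mul_right (unit D m)
          (show slot ⟨i, hi⟩ + 1 ≤ slot ⟨j, hj⟩ by
            simp only [slot]; split <;> split <;> omega)
        rw [Fin.lt_def]; omega
      · rw [dif_neg hj]
        split <;> rw [Fin.lt_def] <;> omega
    · rw [dif_neg hi, dif_neg (by omega), if_pos (by omega), if_neg (by omega)]
      exact hab
  · intro i j hij
    have hij' : (i : ℕ) < (j : ℕ) := hij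
    simp only [g]
    by_cases hi : (i : ℕ) < M + 1
    · rw [dif_pos hi]
      have h2 := hs2 ⟨i, hi⟩
      have hsl := Nat.mul_le_mul_right (unit D m) (hslot ⟨i, hi⟩)
      by_cases hj : (j : ℕ) < M + 1
      · rw [dif_pos hj]
        have h1 := hs1 ⟨j, hj⟩
        have := Nat.mul_le_mul_right (unit D m)
          (show slot ⟨i, hi⟩ + 1 ≤ slot ⟨j, hj⟩ by
            simp only [slot]; split <;> split <;> omega)
        rw [Fin.lt_def]; omega
      · rw [dif_neg hj]
        split <;> rw [Fin.lt_def] <;> omega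
    · rw [dif_neg hi, dif_neg (by omega), if_pos (by omega), if_neg (by omega)]
      exact hcd
  · intro i j
    have fty : ∀ h : (i : ℕ) < M + 1, rowTy D M m (f i) =
        if h' : (i : ℕ) < M then .sig ⟨i, h'⟩ else .rho L := by
      intro h
      have a1 := hr1 ⟨i, h⟩; have a2 := hr2 ⟨i, h⟩
      simp only [f, dif_pos h]
      simp only [slot] at a1 a2
      split
      · rename_i h'; rw [if_pos h'] at a1 a2; exact rowTy_sig ⟨i, h'⟩ a1 a2
      · rename_i h'; rw [if_neg h'] at a1 a2; exact rowTy_rho L a1 a2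
    have gty : ∀ h : (j : ℕ) < M + 1, colTy D M m (g j) =
        if h' : (j : ℕ) < M then .tau ⟨j, h'⟩ else .kap L := by
      intro h
      have a1 := hs1 ⟨j, h⟩; have a2 := hs2 ⟨j, h⟩
      simp only [g, dif_pos h]
      simp only [slot] at a1 a2
      split
      · rename_i h'; rw [if_pos h'] at a1 a2; exact colTy_tau ⟨j, h'⟩ a1 a2
      · rename_i h'; rw [if_neg h'] at a1 a2; exact colTy_kap L a1 a2
    by_cases hj : (j : ℕ) < M + 1
    · have hagree : A (f i) (g j) = B (f i) (g j) := by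
        have := hs4 ⟨j, hj⟩ (f i) (mem_image.mpr ⟨i, mem_univ i, rfl⟩)
        rw [show g j = cs ⟨j, hj⟩ from dif_pos hj]
        exact this
      show B (f i) (g j) = _
      rw [← hagree, hA]
      unfold host
      rw [gty hj]
      by_cases hi : (i : ℕ) < M + 1
      · rw [fty hi]
        by_cases h1 : (i : ℕ) < M <;> by_cases h2 : (j : ℕ) < M <;> simp [h1, h2, pat, cell]
        all_goals omega
      · have hj' : (j : ℕ) < M ∨ (j : ℕ) = M := by omega
        have hiv : (i : ℕ) = M + 1 ∨ (i : ℕ) = M + 2 := by omega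
        simp only [f, dif_neg hi]
        rcases hiv with hiv | hiv <;> rcases hj' with h2 | h2
        · simp [hiv, h2, pat, hat]
        · simp [hiv, h2, pat, hak]
        · simp [hiv, h2, pat, hbt]
        · simp [hiv, h2, pat, hbk]
    · have hjv : (j : ℕ) = M + 1 ∨ (j : ℕ) = M + 2 := by omega
      show B (f i) (g j) = _
      by_cases hi : (i : ℕ) < M + 1
      · have hagree : A (f i) (g j) = B (f i) (g j) := by
          have := hr4 ⟨i, hi⟩ (g j) (by
            rcases hjv with h | h <;> simp [g, h])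
          rw [show f i = rs ⟨i, hi⟩ from dif_pos hi]
          exact this
        rw [← hagree, hA]
        unfold host
        rw [fty hi]
        simp only [g, dif_neg hj]
        rcases hjv with hjv | hjv <;> by_cases h1 : (i : ℕ) < M <;>
          simp [h1, hjv, pat, hct, hdt, hcr, hdr] <;> omega
      · have hiv : (i : ℕ) = M + 1 ∨ (i : ℕ) = M + 2 := by omega
        simp only [f, g, dif_neg hi, dif_neg hj]
        rcases hiv with hiv | hiv <;> rcases hjv with hjv | hjv <;>
          simp [hiv, hjv, pat, hac, had, hbc, hbd]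

theorem far_main (P : Fin M → Fin M → Bool) (hM : 1 ≤ M)
    (hm : 2 * (colours D ^ (colours D + 1) + colours D + 2) ≤ m)
    (B : Fin (size D M m) → Fin (size D M m) → Bool)
    (hB : 32 * (M + 3) * entryDiff (host D M m P) B < unit D m ^ 2) : ¬ IsFree (pat P) B := by
  classical
  set A := host D M m P with hA
  let rp : Fin (2 ^ D) → Fin m → Fin (2 * D + 1) → Fin (size D M m) := fun v i u =>
    ⟨rowPos D M m v i u, lt_of_lt_of_le (rowPos_lt v.isLt i.isLt u.isLt)
      (Nat.mul_le_mul_right _ (by unfold slots; omega))⟩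
  let cp : Fin (2 ^ D) → Fin m → Fin (2 * D + 1) → Fin (size D M m) := fun v i u =>
    ⟨colPos D M m v i u, lt_of_lt_of_le (colPos_lt v.isLt i.isLt u.isLt)
      (Nat.mul_le_mul_right _ (by unfold slots; omega))⟩
  let GR := Good (unit D m) (M + 3) A B
  let GC := Good (unit D m) (M + 3) (tp A) (tp B)
  have hB' : 32 * (M + 3) * entryDiff (tp A) (tp B) < unit D m ^ 2 := by
    rw [entryDiff_tp]; exact hB
  have inj : ∀ {v v' i i' u u' : ℕ}, i < m → i' < m → u < 2 * D + 1 → u' < 2 * D + 1 →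
      (v * m + i) * (2 * D + 1) + u = (v' * m + i') * (2 * D + 1) + u' → v = v' ∧ i = i' := by
    intro v v' i i' u u' hi hi' hu hu' h
    obtain ⟨-, a, b⟩ := block_decode (D := D) (v := v) hi hu
    obtain ⟨-, a', b'⟩ := block_decode (D := D) (v := v') hi' hu'
    have e : v * m + i = v' * m + i' := by rw [← a, ← a', h]
    have ev : v = v' := by rw [← b, ← b', e]
    subst ev
    exact ⟨rfl, by omega⟩
  let SR := (univ : Finset (Fin (2 ^ D) × Fin m)).filter (fun x => ∃ u, ¬ GR (rp x.1 x.2 u))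
  let SC := (univ : Finset (Fin (2 ^ D) × Fin m)).filter (fun x => ∃ u, ¬ GC (cp x.1 x.2 u))
  have hSR : 8 * SR.card < unit D m := by
    refine lt_of_le_of_lt (Nat.mul_le_mul_left 8 ?_) (few_bad _ _ A B hB)
    refine card_le_card_of_injOn
      (fun x => if h : ∃ u, ¬ GR (rp x.1 x.2 u) then rp x.1 x.2 h.choose else rp x.1 x.2 0) ?_ ?_
    · intro x hx
      have hx' : ∃ u, ¬ GR (rp x.1 x.2 u) := (mem_filter.mp hx).2
      refine mem_filter.mpr ⟨mem_univ _, ?_⟩
      simp only [dif_pos hx']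
      exact hx'.choose_spec
    · intro x hx y hy h
      have hx' : ∃ u, ¬ GR (rp x.1 x.2 u) := (mem_filter.mp hx).2
      have hy' : ∃ u, ¬ GR (rp y.1 y.2 u) := (mem_filter.mp hy).2
      simp only [dif_pos hx', dif_pos hy'] at h
      simp only [rp, rowPos, Fin.mk.injEq] at h
      obtain ⟨e1, e2⟩ := inj x.2.isLt y.2.isLt (Fin.isLt _) (Fin.isLt _) (Nat.add_left_cancel h)
      exact Prod.ext (Fin.ext e1) (Fin.ext e2)
  have hSC : 8 * SC.card < unit D m := by
    refine lt_of_le_of_lt (Nat.mul_le_mul_left 8 ?_) (few_bad _ _ (tp A) (tp B) hB')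
    refine card_le_card_of_injOn
      (fun x => if h : ∃ u, ¬ GC (cp x.1 x.2 u) then cp x.1 x.2 h.choose else cp x.1 x.2 0) ?_ ?_
    · intro x hx
      have hx' : ∃ u, ¬ GC (cp x.1 x.2 u) := (mem_filter.mp hx).2
      refine mem_filter.mpr ⟨mem_univ _, ?_⟩
      simp only [dif_pos hx']
      exact hx'.choose_spec
    · intro x hx y hy h
      have hx' : ∃ u, ¬ GC (cp x.1 x.2 u) := (mem_filter.mp hx).2
      have hy' : ∃ u, ¬ GC (cp y.1 y.2 u) := (mem_filter.mp hy).2
      simp only [dif_pos hx', dif_pos hy'] at h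
      simp only [cp, colPos, Fin.mk.injEq] at h
      obtain ⟨e1, e2⟩ := inj x.2.isLt y.2.isLt (Fin.isLt _) (Fin.isLt _) (Nat.add_left_cancel h)
      exact Prod.ext (Fin.ext e1) (Fin.ext e2)
  obtain ⟨v, hv⟩ : ∃ v : Fin (2 ^ D),
      2 * ((SR ∪ SC).filter (fun x => x.1 = v)).card < m := by
    by_contra hc
    push Not at hc
    have h1 := card_eq_sum_card_fiberwise (s := SR ∪ SC) (f := Prod.fst)
      (t := (univ : Finset (Fin (2 ^ D)))) (fun _ _ => mem_univ _)
    have h2 : 2 ^ D * m ≤ 2 * (SR ∪ SC).card := by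
      rw [h1, mul_sum]
      simpa using card_nsmul_le_sum (univ : Finset (Fin (2 ^ D))) _ m (fun v _ => hc v)
    have := card_union_le SR SC
    simp only [unit] at hSR hSC
    omega
  let G := (univ : Finset (Fin m)).filter (fun i => (v, i) ∉ SR ∪ SC)
  have hG : colours D ^ (colours D + 1) + colours D + 2 ≤ G.card := by
    have hsplit := card_filter_add_card_filter_not (s := (univ : Finset (Fin m)))
      (fun i => (v, i) ∈ SR ∪ SC)
    have : ((univ : Finset (Fin m)).filter (fun i => (v, i) ∈ SR ∪ SC)).card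
        ≤ ((SR ∪ SC).filter (fun x => x.1 = v)).card :=
      card_le_card_of_injOn (fun i => (v, i)) (fun i hi => by simpa using hi)
        (fun i _ j _ h => (Prod.ext_iff.mp h).2)
    simp only [card_univ, Fintype.card_fin] at hsplit
    show _ ≤ ((univ : Finset (Fin m)).filter (fun i => (v, i) ∉ SR ∪ SC)).card
    omega
  have gR : ∀ i ∈ G, ∀ u, GR (rp v i u) := by
    intro i hi u
    by_contra hb
    exact (mem_filter.mp hi).2 (mem_union_left _ (mem_filter.mpr ⟨mem_univ _, u, hb⟩))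
  have gC : ∀ i ∈ G, ∀ u, GC (cp v i u) := by
    intro i hi u
    by_contra hb
    exact (mem_filter.mp hi).2 (mem_union_right _ (mem_filter.mpr ⟨mem_univ _, u, hb⟩))
  obtain ⟨i1, hi1, i2, hi2, j1, hj1, j2, hj2, hii, hjj, e12, e21, -⟩ :=
    pigeon G (fun i j => fun u w => B (rp v i u) (cp v j w)) hG
  let y : Fin (2 * D + 1) → Fin (2 * D + 1) → Bool := fun u w => B (rp v i1 u) (cp v j1 w)
  have y12 : ∀ u w, B (rp v i1 u) (cp v j2 w) = y u w := fun u w => congrFun (congrFun e12 u) w
  have y21 : ∀ u w, B (rp v i2 u) (cp v j1 w) = y u w := fun u w => congrFun (congrFun e21 u) w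
  have tR : ∀ i u, rowTy D M m (rp v i u) = .main v u := fun i u =>
    rowTy_rowPos v.isLt i.isLt u.isLt
  have tC : ∀ i u, colTy D M m (cp v i u) = .main v u := fun i u =>
    colTy_colPos v.isLt i.isLt u.isLt
  have rlo : ∀ i u, (M + lk D + 1) * unit D m ≤ (rp v i u : ℕ) := fun i u => Nat.le_add_right _ _
  have clo : ∀ i u, (M + lk D) * unit D m ≤ (cp v i u : ℕ) := fun i u => Nat.le_add_right _ _
  have rhi : ∀ i u, (rp v i u : ℕ) < (M + lk D + 1 + (2 * D + 1)) * unit D m := fun i u =>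
    rowPos_lt v.isLt i.isLt u.isLt
  have chi : ∀ i u, (cp v i u : ℕ) < (M + lk D + (2 * D + 1)) * unit D m := fun i u =>
    colPos_lt v.isLt i.isLt u.isLt
  have hzero_lo : (M + lk D) * unit D m ≤ (M + lk D + 1) * unit D m :=
    Nat.mul_le_mul_right _ (by omega)
  -- auxiliary elements
  have getZero : ∀ Q : Finset (Fin (size D M m)), Q.card ≤ 2 → (∀ q ∈ Q, GC q) →
      ∃ a : Fin (size D M m), rowTy D M m a = .zero ∧ (M + lk D) * unit D m ≤ (a : ℕ) ∧
        (a : ℕ) < (M + lk D + 1) * unit D m ∧ GR a ∧ ∀ q ∈ Q, A a q = B a q := by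
    intro Q hQ hg
    obtain ⟨a, h1, h2, h3, h4⟩ := pick (unit D m) (M + 3) A B hB Q (by omega) hg (M + lk D)
      (slot_le_size (by unfold slots; omega))
    exact ⟨a, rowTy_zero h1 h2, h1, h2, h3, h4⟩
  have getDD : ∀ Q : Finset (Fin (size D M m)), Q.card ≤ 2 → (∀ q ∈ Q, GR q) →
      ∃ d : Fin (size D M m), colTy D M m d = .dd ∧ (M + lk D + (2 * D + 1)) * unit D m ≤ (d : ℕ) ∧ GC d ∧
        ∀ q ∈ Q, A q d = B q d := by
    intro Q hQ hg
    obtain ⟨d, h1, h2, h3, h4⟩ := pick (unit D m) (M + 3) (tp A) (tp B) hB' Q (by omega) hg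
      (M + lk D + (2 * D + 1)) (slot_le_size (by unfold slots; omega))
    exact ⟨d, colTy_dd h1 h2, h1, h3, h4⟩
  let u0 : Fin (2 * D + 1) := ⟨0, by omega⟩
  let uL : Fin (2 * D + 1) := ⟨2 * D, by omega⟩
  by_cases hbot : y u0 u0 = true
  · -- the bottom link
    obtain ⟨a, ta, la, lta, ga, aa⟩ := getZero {cp v j1 u0} (by simp)
      (by simpa using gC j1 hj1 u0)
    obtain ⟨d, td, ld, gd, ad⟩ := getDD {a, rp v i1 u0}
      ((card_insert_le _ _).trans (by simp)) (by simp [ga, gR i1 hi1 u0])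
    refine copy_of_core P hM B hB .bot a (rp v i1 u0) (cp v j1 u0) d ga (gR i1 hi1 u0)
      (gC j1 hj1 u0) gd ?_ ?_ la (clo _ _) ?_ ?_ ?_ ?_ ?_ ?_ ?_ ?_ ?_ ?_ hbot ?_
    · exact Fin.lt_def.mpr (lt_of_lt_of_le lta (rlo _ _))
    · exact Fin.lt_def.mpr (lt_of_lt_of_le (chi _ _) ld)
    · intro; simp [ta, cell]
    · intro; simp [tR, cell]
    · intro; simp [tC, cell]
    · intro; simp [td, cell]
    · simp [ta, cell, zMem]
    · simp [tR, cell, zMem, u0]
    · simp [tC, cell, wMem, u0]
    · simp [td, cell, wMem]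
    · rw [← aa _ (by simp)]; simp [hA, host, ta, tC, cell]
    · rw [← ad a (by simp)]; simp [hA, host, ta, td, cell]
    · rw [← ad (rp v i1 u0) (by simp)]; simp [hA, host, tR, td, cell]
  by_cases htop : y uL uL = false
  · -- the top link
    obtain ⟨b, hb1, hb2, gb, ab⟩ := pick (unit D m) (M + 3) A B hB {cp v j1 uL} (by simp)
      (by simpa using gC j1 hj1 uL) (M + lk D + 1 + (2 * D + 1))
      (slot_le_size (by unfold slots; omega))
    have tb := rowTy_one hb1 hb2
    obtain ⟨d, td, ld, gd, ad⟩ := getDD {rp v i1 uL, b}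
      ((card_insert_le _ _).trans (by simp)) (by simp [GR, gb]; exact gR i1 hi1 uL)
    refine copy_of_core P hM B hB .top (rp v i1 uL) b (cp v j1 uL) d (gR i1 hi1 uL) gb
      (gC j1 hj1 uL) gd ?_ ?_ (hzero_lo.trans (rlo _ _)) (clo _ _) ?_ ?_ ?_ ?_ ?_ ?_ ?_ ?_ htop ?_ ?_ ?_
    · exact Fin.lt_def.mpr (lt_of_lt_of_le (rhi _ _) hb1)
    · exact Fin.lt_def.mpr (lt_of_lt_of_le (chi _ _) ld)
    · intro; simp [tR, cell]
    · intro; simp [tb, cell]
    · intro; simp [tC, cell]
    · intro; simp [td, cell]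
    · simp [tR, cell, zMem, uL]
    · simp [tb, cell, zMem]
    · simp [tC, cell, wMem, uL]
    · simp [td, cell, wMem]
    · rw [← ad (rp v i1 uL) (by simp)]; simp [hA, host, tR, td, cell]
    · rw [← ab _ (by simp)]; simp [hA, host, tb, tC, cell]
    · rw [← ad b (by simp)]; simp [hA, host, tb, td, cell]
  -- a jump along the chain
  obtain ⟨i, hjump⟩ : ∃ i : Fin (2 * D),
      (y i.castSucc i.castSucc = false ∧ y i.succ i.castSucc = true) ∨
        (y i.succ i.castSucc = false ∧ y i.succ i.succ = true) := by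
    by_contra hc
    push Not at hc
    have : ∀ u : Fin (2 * D + 1), y u u = false := by
      refine Fin.induction ?_ ?_
      · simpa [u0] using hbot
      · intro i hi
        have h1 := (hc i).1 hi
        have h2 := (hc i).2 (by simpa using h1)
        simpa using h2
    exact htop (this uL)
  rcases hjump with ⟨hf, ht⟩ | ⟨hf, ht⟩
  · -- an even link
    obtain ⟨d, td, ld, gd, ad⟩ := getDD {rp v i1 i.castSucc, rp v i2 i.succ}
      ((card_insert_le _ _).trans (by simp))
      (by simp [gR i1 hi1 i.castSucc, gR i2 hi2 i.succ])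
    refine copy_of_core P hM B hB (.ev i (bitAt D i v)) (rp v i1 i.castSucc) (rp v i2 i.succ)
      (cp v j1 i.castSucc) d (gR i1 hi1 _) (gR i2 hi2 _) (gC j1 hj1 _) gd ?_ ?_
      (hzero_lo.trans (rlo _ _)) (clo _ _) ?_ ?_ ?_ ?_ ?_ ?_ ?_ ?_ hf ?_ ?_ ?_
    · exact Fin.lt_def.mpr (Nat.add_lt_add_left (pos_strict hii (Fin.isLt _)) _)
    · exact Fin.lt_def.mpr (lt_of_lt_of_le (chi _ _) ld)
    · intro; simp [tR, cell]
    · intro; simp [tR, cell]
    · intro; simp [tC, cell]
    · intro; simp [td, cell]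
    · simp [tR, cell, zMem]
    · simp [tR, cell, zMem]
    · simp [tC, cell, wMem]
    · simp [td, cell, wMem]
    · rw [← ad _ (by simp)]; simp [hA, host, tR, td, cell]
    · rw [y21]; exact ht
    · rw [← ad _ (by simp)]; simp [hA, host, tR, td, cell]
  · -- an odd link
    obtain ⟨a, ta, la, lta, ga, aa⟩ := getZero {cp v j1 i.succ, cp v j2 i.castSucc}
      ((card_insert_le _ _).trans (by simp))
      (by simp [gC j1 hj1 i.succ, gC j2 hj2 i.castSucc])
    refine copy_of_core P hM B hB (.od i) a (rp v i1 i.succ) (cp v j1 i.succ)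
      (cp v j2 i.castSucc) ga (gR i1 hi1 _) (gC j1 hj1 _) (gC j2 hj2 _) ?_ ?_ la (clo _ _)
      ?_ ?_ ?_ ?_ ?_ ?_ ?_ ?_ ?_ ?_ ht ?_
    · exact Fin.lt_def.mpr (lt_of_lt_of_le lta (rlo _ _))
    · exact Fin.lt_def.mpr (Nat.add_lt_add_left (pos_strict hjj (Fin.isLt _)) _)
    · intro; simp [ta, cell]
    · intro; simp [tR, cell]
    · intro; simp [tC, cell]
    · intro; simp [tC, cell]
    · simp [ta, cell, zMem]
    · simp [tR, cell, zMem]
    · simp [tC, cell, wMem]
    · simp [tC, cell, wMem]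
    · rw [← aa _ (by simp)]; simp [hA, host, ta, tC, cell]
    · rw [← aa _ (by simp)]; simp [hA, host, ta, tC, cell]
    · rw [y12]; exact hf

theorem farSpec : FarSpec := fun _ _ P _ hM B hB => far_main P hM le_rfl B hB

end Vale.Agent.P037.Disproof
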