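import Vale.Agent.P037.Disproof.Tree

/-!
Monochromatic subgrids in the simple blocks.
-/

open Finset

namespace Vale.Agent.P037.Disproof

/-- A `u × u` monochromatic subgrid. -/
def HasMono {α β : Type*} (f : α → β → Bool) (X : Finset α) (Y : Finset β) (u : ℕ) : Prop :=
  ∃ X' ⊆ X, ∃ Y' ⊆ Y, u ≤ X'.card ∧ u ≤ Y'.card ∧ ∃ c, ∀ x ∈ X', ∀ y ∈ Y', f x y = c

variable {α β : Type*} {f : α → β → Bool} {X : Finset α} {Y : Finset β} {u : ℕ}

lemma HasMono.subgrid {X' : Finset α} {Y' : Finset β} (h : HasMono f X' Y' u) (hX : X' ⊆ X)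
    (hY : Y' ⊆ Y) : HasMono f X Y u := by
  obtain ⟨A, hA, B, hB, h⟩ := h
  exact ⟨A, hA.trans hX, B, hB.trans hY, h⟩

lemma HasMono.swap (h : HasMono (fun y x => f x y) Y X u) : HasMono f X Y u := by
  obtain ⟨A, hA, B, hB, a, b, c, hc⟩ := h
  exact ⟨B, hB, A, hA, b, a, c, fun x hx y hy => hc y hy x hx⟩

lemma HasMono.congr {g : α → β → Bool} (h : HasMono g X Y u)
    (e : ∀ x ∈ X, ∀ y ∈ Y, f x y = g x y) : HasMono f X Y u := by
  obtain ⟨A, hA, B, hB, a, b, c, hc⟩ := h
  exact ⟨A, hA, B, hB, a, b, c, fun x hx y hy => by rw [e x (hA hx) y (hB hy)]; exact hc x hx y hy⟩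

lemma mono_of_const_rows {g : β → Bool} (e : ∀ x ∈ X, ∀ y ∈ Y, f x y = g y) (hX : u ≤ X.card)
    (hY : 2 * u ≤ Y.card) : HasMono f X Y u := by
  have := card_filter_add_card_filter_not (s := Y) (fun y => g y = true)
  by_cases h : u ≤ (Y.filter (fun y => g y = true)).card
  · exact ⟨X, subset_rfl, _, filter_subset _ _, hX, h, true, fun x hx y hy => by
      rw [mem_filter] at hy; rw [e x hx y hy.1, hy.2]⟩
  · exact ⟨X, subset_rfl, Y.filter (fun y => ¬ g y = true), filter_subset _ _, hX, by omega, false,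
      fun x hx y hy => by rw [mem_filter] at hy; rw [e x hx y hy.1]; simpa using hy.2⟩

lemma exists_median (g : α → ℤ) (hX : X.Nonempty) :
    ∃ θ, X.card ≤ 2 * (X.filter (fun x => g x ≤ θ)).card ∧
      X.card ≤ 2 * (X.filter (fun x => θ ≤ g x)).card := by
  classical
  let T := (X.image g).filter (fun θ => X.card ≤ 2 * (X.filter (fun x => g x ≤ θ)).card)
  have hT : T.Nonempty := by
    refine ⟨(X.image g).max' (hX.image g), mem_filter.mpr ⟨max'_mem _ _, ?_⟩⟩
    rw [filter_true_of_mem (fun x hx => le_max' _ _ (mem_image_of_mem g hx))]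
    omega
  refine ⟨T.min' hT, (mem_filter.mp (min'_mem T hT)).2, ?_⟩
  by_contra hcon
  have hsplit := card_filter_add_card_filter_not (s := X) (fun x => T.min' hT ≤ g x)
  set low := X.filter (fun x => ¬ T.min' hT ≤ g x) with hlow
  have hne : low.Nonempty := card_pos.mp (by omega)
  let θ' := (low.image g).max' (hne.image g)
  obtain ⟨x0, hx0, hx0'⟩ := mem_image.mp (max'_mem (low.image g) (hne.image g))
  have hlt : θ' < T.min' hT := by
    have := (mem_filter.mp hx0).2
    change (low.image g).max' _ < _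
    omega
  have : θ' ∈ T := by
    refine mem_filter.mpr ⟨mem_image.mpr ⟨x0, (mem_filter.mp hx0).1, hx0'⟩, ?_⟩
    have : low.card ≤ (X.filter (fun x => g x ≤ θ')).card :=
      card_le_card fun x hx => mem_filter.mpr ⟨(mem_filter.mp hx).1,
        le_max' (low.image g) (g x) (mem_image_of_mem g hx)⟩
    omega
  have := min'_le T θ' this
  omega

lemma split_cols (g : β → ℤ) (θ : ℤ) :
    Y.card ≤ 2 * (Y.filter (fun y => θ ≤ g y)).card ∨
      Y.card ≤ 2 * (Y.filter (fun y => g y < θ)).card := by
  have := card_filter_add_card_filter_not (s := Y) (fun y => θ ≤ g y)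
  simp only [not_le] at this
  omega

lemma mono_threshold (h : α → ℤ) (g : β → ℤ)
    (e : ∀ x ∈ X, ∀ y ∈ Y, f x y = decide (g y < h x)) (hX : 2 * u ≤ X.card) (hX0 : X.Nonempty)
    (hY : 2 * u ≤ Y.card) : HasMono f X Y u := by
  obtain ⟨θ, h1, h2⟩ := exists_median h hX0
  rcases split_cols (Y := Y) g θ with hh | hh
  · refine ⟨_, filter_subset (fun x => h x ≤ θ) X, _, filter_subset (fun y => θ ≤ g y) Y,
      by omega, by omega, false, fun x hx y hy => ?_⟩
    rw [mem_filter] at hx hy
    rw [e x hx.1 y hy.1]; simp; omega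
  · refine ⟨_, filter_subset (fun x => θ ≤ h x) X, _, filter_subset (fun y => g y < θ) Y,
      by omega, by omega, true, fun x hx y hy => ?_⟩
    rw [mem_filter] at hx hy
    rw [e x hx.1 y hy.1]; simp; omega

lemma mono_max (a : α → ℕ) (b : β → ℕ) (φ : ℕ → ℤ) (i : α → ℤ) (w : β → ℤ)
    (e : ∀ x ∈ X, ∀ y ∈ Y, f x y = decide (φ (max (a x) (b y)) < i x + w y))
    (hu : 1 ≤ u) (hX : 4 * u ≤ X.card) (hY : 4 * u ≤ Y.card) : HasMono f X Y u := by
  obtain ⟨θ, h1, h2⟩ := exists_median (fun x => (a x : ℤ)) (card_pos.mp (by omega : 0 < X.card))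
  rcases split_cols (Y := Y) (fun y => (b y : ℤ)) θ with hh | hh
  · refine (mono_threshold (X := X.filter (fun x => (a x : ℤ) ≤ θ))
      (Y := Y.filter (fun y => θ ≤ (b y : ℤ))) i (fun y => φ (b y) - w y) ?_ (by omega)
      (card_pos.mp (by omega)) (by omega)).subgrid (filter_subset _ _) (filter_subset _ _)
    intro x hx y hy
    rw [mem_filter] at hx hy
    rw [e x hx.1 y hy.1, max_eq_right (by omega)]
    simp; omega
  · refine (mono_threshold (X := X.filter (fun x => θ ≤ (a x : ℤ)))
      (Y := Y.filter (fun y => (b y : ℤ) < θ)) (fun x => i x - φ (a x)) (fun y => - w y) ?_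
      (by omega) (card_pos.mp (by omega)) (by omega)).subgrid (filter_subset _ _)
      (filter_subset _ _)
    intro x hx y hy
    rw [mem_filter] at hx hy
    rw [e x hx.1 y hy.1, max_eq_left (by omega)]
    simp; omega

lemma mono_tree (D : ℕ) (v i : α → ℕ) (v' w : β → ℕ)
    (e : ∀ x ∈ X, ∀ y ∈ Y, v x ≠ v' y ∧
      f x y = decide (2 * sh D (v x) (v' y) < i x + w y))
    (hu : 1 ≤ u) (hX : 8 * u ≤ X.card) (hY : 8 * u ≤ Y.card) : HasMono f X Y u := by
  obtain ⟨θ, h1, h2⟩ := exists_median (fun x => (v x : ℤ)) (card_pos.mp (by omega : 0 < X.card))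
  rcases split_cols (Y := Y) (fun y => (v' y : ℤ)) θ with hh | hh
  · refine (mono_max (X := X.filter (fun x => (v x : ℤ) ≤ θ))
      (Y := Y.filter (fun y => θ ≤ (v' y : ℤ))) (fun x => ht (v x) θ.toNat)
      (fun y => ht θ.toNat (v' y)) (fun r => ((2 * (D - 1 - r) : ℕ) : ℤ)) (fun x => (i x : ℤ))
      (fun y => (w y : ℤ)) ?_ hu (by omega) (by omega)).subgrid (filter_subset _ _)
      (filter_subset _ _)
    intro x hx y hy
    rw [mem_filter] at hx hy
    obtain ⟨hne, hf⟩ := e x hx.1 y hy.1
    rw [hf, ← ht_eq_max (by omega) (by omega)]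
    unfold sh
    rw [if_pos (by omega)]
    simp only [decide_eq_decide]
    omega
  · refine (mono_max (X := X.filter (fun x => θ ≤ (v x : ℤ)))
      (Y := Y.filter (fun y => (v' y : ℤ) < θ)) (fun x => ht (v x) θ.toNat)
      (fun y => ht θ.toNat (v' y)) (fun r => ((2 * (D + r) : ℕ) : ℤ)) (fun x => (i x : ℤ))
      (fun y => (w y : ℤ)) ?_ hu (by omega) (by omega)).subgrid (filter_subset _ _)
      (filter_subset _ _)
    intro x hx y hy
    rw [mem_filter] at hx hy
    obtain ⟨hne, hf⟩ := e x hx.1 y hy.1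
    have hm : max (ht (v x) θ.toNat) (ht θ.toNat (v' y)) = ht (v x) (v' y) := by
      rw [ht_comm (v x), ht_comm θ.toNat (v' y), ht_comm (v x) (v' y),
        ht_eq_max (show v' y ≤ θ.toNat by omega) (show θ.toNat ≤ v x by omega), max_comm]
    rw [hf, hm]
    unfold sh
    rw [if_neg (by omega)]
    simp only [decide_eq_decide]
    omega

variable {ι : Type*} [DecidableEq ι]

lemma exists_groups (l : α → ι) (hu : 1 ≤ u) :
    ∀ (k : ℕ) (X : Finset α), (∀ z, (X.filter (fun x => l x = z)).card < u) →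
      2 * k * u ≤ X.card →
      ∃ Z : Fin k → Finset ι, (∀ a b, a ≠ b → Disjoint (Z a) (Z b)) ∧
        (∀ a, Z a ⊆ X.image l) ∧ ∀ a, u ≤ (X.filter (fun x => l x ∈ Z a)).card := by
  classical
  intro k
  induction k with
  | zero => intro X _ _; exact ⟨Fin.elim0, fun a => a.elim0, fun a => a.elim0, fun a => a.elim0⟩
  | succ k ih =>
    intro X hfib hcard
    have hcard' : 2 * k * u + 2 * u ≤ X.card := le_of_eq_of_le (by ring) hcard
    let good := (X.image l).powerset.filter
      (fun S => u ≤ (X.filter (fun x => l x ∈ S)).card)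
    have hgood : good.Nonempty := ⟨X.image l, mem_filter.mpr ⟨mem_powerset.mpr subset_rfl, by
      rw [filter_true_of_mem (fun x hx => mem_image_of_mem l hx)]; omega⟩⟩
    obtain ⟨S, hS, hmin⟩ := exists_min_image good Finset.card hgood
    obtain ⟨hSsub, hSu⟩ := mem_filter.mp hS
    rw [mem_powerset] at hSsub
    have hSne : S.Nonempty := by
      rw [nonempty_iff_ne_empty]; rintro rfl; simp at hSu; omega
    obtain ⟨z, hz⟩ := hSne
    have hlt : (X.filter (fun x => l x ∈ S)).card < 2 * u := by
      have h1 : (X.filter (fun x => l x ∈ S.erase z)).card < u := by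
        by_contra hc
        have := hmin (S.erase z) (mem_filter.mpr
          ⟨mem_powerset.mpr ((erase_subset _ _).trans hSsub), by omega⟩)
        rw [card_erase_of_mem hz] at this
        have := card_pos.mpr ⟨z, hz⟩
        omega
      have h2 : (X.filter (fun x => l x ∈ S)) ⊆
          X.filter (fun x => l x ∈ S.erase z) ∪ X.filter (fun x => l x = z) := by
        intro x hx
        simp only [mem_filter, mem_union, mem_erase] at *
        tauto
      have := (card_le_card h2).trans (card_union_le _ _)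
      have := hfib z
      omega
    have hsplit := card_filter_add_card_filter_not (s := X) (fun x => l x ∈ S)
    obtain ⟨Z, hd, hsub, hbig⟩ := ih (X.filter (fun x => ¬ l x ∈ S))
      (fun z => lt_of_le_of_lt (card_le_card (filter_subset_filter _ (filter_subset _ _))) (hfib z))
      (by omega)
    have hZS : ∀ a, Disjoint S (Z a) := by
      intro a
      rw [disjoint_left]
      intro z hz hza
      obtain ⟨x, hx, rfl⟩ := mem_image.mp (hsub a hza)
      exact (mem_filter.mp hx).2 hz
    refine ⟨Fin.cons S Z, ?_, ?_, ?_⟩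
    · intro a b
      refine Fin.cases ?_ (fun a => ?_) a <;> refine Fin.cases ?_ (fun b => ?_) b <;> intro hab
      · exact absurd rfl hab
      · simpa using hZS b
      · simpa using (hZS a).symm
      · simpa using hd a b (fun h => hab (congrArg Fin.succ h))
    · intro a
      refine Fin.cases ?_ (fun a => ?_) a
      · simpa using hSsub
      · simpa using (hsub a).trans (image_subset_image (filter_subset _ _))
    · intro a
      refine Fin.cases ?_ (fun a => ?_) a
      · simpa using hSu
      · simpa using (hbig a).trans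
          (card_le_card (filter_subset_filter _ (filter_subset _ _)))

lemma mono_label (l : α → ι) (G : β → Finset ι)
    (e : ∀ x ∈ X, ∀ y ∈ Y, f x y = decide (l x ∈ G y)) (hG : ∀ y ∈ Y, (G y).card ≤ 6)
    (hu : 1 ≤ u) (hX : 14 * u ≤ X.card) (hY : 7 * u ≤ Y.card) : HasMono f X Y u := by
  classical
  by_cases hf : ∃ z, u ≤ (X.filter (fun x => l x = z)).card
  · obtain ⟨z, hz⟩ := hf
    refine (mono_of_const_rows (X := X.filter (fun x => l x = z)) (Y := Y)
      (g := fun y => decide (z ∈ G y)) ?_ hz (by omega)).subgrid (filter_subset _ _) subset_rfl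
    intro x hx y hy
    rw [mem_filter] at hx
    rw [e x hx.1 y hy, hx.2]
  push Not at hf
  obtain ⟨Z, hd, -, hbig⟩ := exists_groups l hu 7 X hf (by omega)
  have hmiss : ∀ y ∈ Y, ∃ a, Disjoint (Z a) (G y) := by
    intro y hy
    by_contra hc
    push Not at hc
    choose z hz using fun a => not_disjoint_iff.mp (hc a)
    have hinj : Function.Injective z := by
      intro a b hab
      by_contra hne
      exact disjoint_left.mp (hd a b hne) (hz a).1 (hab ▸ (hz b).1)
    have := card_le_card_of_injOn z (s := (univ : Finset (Fin 7))) (t := G y)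
      (fun a _ => (hz a).2) hinj.injOn
    have := hG y hy
    simp at *
    omega
  have hcov : Y ⊆ (univ : Finset (Fin 7)).biUnion
      (fun a => Y.filter (fun y => Disjoint (Z a) (G y))) := by
    intro y hy
    obtain ⟨a, ha⟩ := hmiss y hy
    exact mem_biUnion.mpr ⟨a, mem_univ a, mem_filter.mpr ⟨hy, ha⟩⟩
  obtain ⟨a, ha⟩ : ∃ a, u ≤ (Y.filter (fun y => Disjoint (Z a) (G y))).card := by
    by_contra hc
    push Not at hc
    have h1 := (card_le_card hcov).trans
      (card_biUnion_le_card_mul (univ : Finset (Fin 7)) _ (u - 1)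
        (fun a _ => by have := hc a; omega))
    simp at h1
    omega
  refine ⟨_, filter_subset (fun x => l x ∈ Z a) X, _,
    filter_subset (fun y => Disjoint (Z a) (G y)) Y, hbig a, ha, false, fun x hx y hy => ?_⟩
  rw [mem_filter] at hx hy
  rw [e x hx.1 y hy.1]
  simpa using disjoint_left.mp hy.2 hx.2

end Vale.Agent.P037.Disproof
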