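import Vale.Agent.P037.Defs
import Vale.Agent.P037.Disproof.Hadamard
import Vale.Agent.P037.Disproof.Mono
import Vale.Agent.P037.Disproof.Layout
import Vale.Agent.P037.Disproof.Spec

/-!
Every copy of the pattern in the host matrix uses a row and a column in the same leaf.
-/

open Finset

namespace Vale.Agent.P037.Disproof

variable {D M m : ℕ}

namespace RTy

/-- The kind of a row type. -/
def kind : RTy D M → Fin 5
  | .rho _ => 0
  | .zero => 1
  | .main _ _ => 2
  | .one => 3
  | .sig _ => 4

/-- The link of a row type. -/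
def link : RTy D M → Link D
  | .rho L => L
  | _ => .bot

/-- The leaf of a row type. -/
def leaf : RTy D M → ℕ
  | .main v _ => v
  | _ => 0

/-- The class of a row type. -/
def idx : RTy D M → ℕ
  | .main _ u => u
  | _ => 0

/-- The value on typing columns. -/
def code : RTy D M → Bool
  | .rho _ => false
  | _ => true

end RTy

namespace CTy

/-- The kind of a column type. -/
def kind : CTy D M → Fin 4
  | .kap _ => 0
  | .main _ _ => 1
  | .dd => 2
  | .tau _ => 3

/-- The link of a column type. -/
def link : CTy D M → Link D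
  | .kap L => L
  | _ => .bot

/-- The leaf of a column type. -/
def leaf : CTy D M → ℕ
  | .main v _ => v
  | _ => 0

/-- The class of a column type. -/
def idx : CTy D M → ℕ
  | .main _ u => u
  | _ => 0

/-- The value on typing rows. -/
def code : CTy D M → Bool
  | .kap _ => false
  | _ => true

end CTy

/-- An outside grid of one kind on each side has a large monochromatic subgrid. -/
lemma mono_kind (P : Fin M → Fin M → Bool) {α β : Type*} (R : α → RTy D M) (C : β → CTy D M)
    (X : Finset α) (Y : Finset β) (k : Fin 5) (k' : Fin 4) (hk : k ≠ 4) (hk' : k' ≠ 3)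
    (hX : ∀ x ∈ X, (R x).kind = k) (hY : ∀ y ∈ Y, (C y).kind = k')
    (hnd : ∀ x y v w u u', R x = .main v u → C y = .main w u' → v ≠ w)
    {s : ℕ} (hs : 1 ≤ s) (hcX : 16 * s ≤ X.card) (hcY : 16 * s ≤ Y.card) :
    HasMono (fun x y => cell P (R x) (C y)) X Y s := by
  classical
  fin_cases k
  · -- rho rows
    fin_cases k'
    · refine mono_label (fun x => (R x).link) (fun y => {(C y).link}) ?_ (fun y _ => by simp) hs
        (by omega) (by omega)
      intro x hx y hy
      have a := hX x hx; have b := hY y hy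
      cases hr : R x <;> rw [hr] at a <;> simp [RTy.kind] at a
      cases hc : C y <;> rw [hc] at b <;> simp [CTy.kind] at b
      simp [cell, RTy.link, CTy.link]
    · refine mono_label (fun x => (R x).link)
        (fun y => univ.filter (fun L => wMem L (C y) = true)) ?_ ?_ hs (by omega) (by omega)
      · intro x hx y hy
        have a := hX x hx; have b := hY y hy
        cases hr : R x <;> rw [hr] at a <;> simp [RTy.kind] at a
        cases hc : C y <;> rw [hc] at b <;> simp [CTy.kind] at b
        simp [cell, RTy.link, hc]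
      · intro y hy
        have b := hY y hy
        cases hc : C y <;> rw [hc] at b <;> simp [CTy.kind] at b
        exact wLinks_card _ _
    · refine HasMono.swap (mono_of_const_rows (g := fun x => cell P (R x) CTy.dd) ?_ (by omega)
        (by omega))
      intro y hy x _
      have b := hY y hy
      cases hc : C y <;> rw [hc] at b <;> simp [CTy.kind] at b
    · exact absurd rfl hk'
  · refine mono_of_const_rows (g := fun y => cell P RTy.zero (C y)) ?_ (by omega) (by omega)
    intro x hx y _
    have a := hX x hx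
    cases hr : R x <;> rw [hr] at a <;> simp [RTy.kind] at a
  · fin_cases k'
    · refine HasMono.swap (mono_label (fun y => (C y).link)
        (fun x => univ.filter (fun L => zMem L (R x) = true)) ?_ ?_ hs (by omega) (by omega))
      · intro y hy x hx
        have a := hX x hx; have b := hY y hy
        cases hr : R x <;> rw [hr] at a <;> simp [RTy.kind] at a
        cases hc : C y <;> rw [hc] at b <;> simp [CTy.kind] at b
        simp [cell, CTy.link, hr]
      · intro x hx
        have a := hX x hx
        cases hr : R x <;> rw [hr] at a <;> simp [RTy.kind] at a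
        exact zLinks_card _ _ _ rfl
    · refine mono_tree D (fun x => (R x).leaf) (fun x => (R x).idx) (fun y => (C y).leaf)
        (fun y => (C y).idx) ?_ hs (by omega) (by omega)
      intro x hx y hy
      have a := hX x hx; have b := hY y hy
      cases hr : R x <;> rw [hr] at a <;> simp [RTy.kind] at a
      cases hc : C y <;> rw [hc] at b <;> simp [CTy.kind] at b
      have := hnd x y _ _ _ _ hr hc
      simp only [cell, RTy.leaf, RTy.idx, CTy.leaf, CTy.idx]
      exact ⟨this, decide_eq_decide.mpr ⟨And.right, fun h => ⟨this, h⟩⟩⟩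
    · refine mono_of_const_rows (g := fun _ => false) ?_ (by omega) (by omega)
      intro x hx y hy
      have a := hX x hx; have b := hY y hy
      cases hr : R x <;> rw [hr] at a <;> simp [RTy.kind] at a
      cases hc : C y <;> rw [hc] at b <;> simp [CTy.kind] at b
      rfl
    · exact absurd rfl hk'
  · refine mono_of_const_rows (g := fun y => cell P RTy.one (C y)) ?_ (by omega) (by omega)
    intro x hx y _
    have a := hX x hx
    cases hr : R x <;> rw [hr] at a <;> simp [RTy.kind] at a
  · exact absurd rfl hk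

/-- A set all of whose rows look alike on half of the columns is small. -/
lemma small_of_const {P : Fin M → Fin M → Bool} (hP : Rigid P) (X Y : Finset (Fin M)) (c : Bool)
    (h : ∀ x ∈ X, ∀ y ∈ Y, P x y = c) (hY : M ≤ 2 * Y.card) (hM : 1 ≤ M) : X.card ≤ 4 := by
  have := hP.mono X Y c h
  by_contra hc
  nlinarith [Nat.mul_le_mul (show 5 ≤ X.card by omega) hY]

lemma small_of_const' {P : Fin M → Fin M → Bool} (hP : Rigid P) (X Y : Finset (Fin M)) (c : Bool)
    (h : ∀ x ∈ X, ∀ y ∈ Y, P x y = c) (hX : M ≤ 2 * X.card) (hM : 1 ≤ M) : Y.card ≤ 4 := by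
  have := hP.mono X Y c h
  by_contra hc
  nlinarith [Nat.mul_le_mul (show 5 ≤ Y.card by omega) hX]

lemma exists_big_fiber {α : Type*} {r : ℕ} (X : Finset α) (g : α → Fin r) (hX : X.Nonempty) :
    ∃ k, (∃ x ∈ X, g x = k) ∧ X.card ≤ r * (X.filter (fun x => g x = k)).card := by
  classical
  obtain ⟨x0, hx0⟩ := hX
  have : NeZero r := ⟨fun h => by subst h; exact (g x0).elim0⟩
  obtain ⟨k, -, hk⟩ := exists_max_image (univ : Finset (Fin r))
    (fun k => (X.filter (fun x => g x = k)).card) univ_nonempty
  have hle : X.card ≤ r * (X.filter (fun x => g x = k)).card := by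
    rw [card_eq_sum_card_fiberwise (f := g) (t := univ) (fun x _ => mem_univ (g x))]
    calc ∑ b, (X.filter (fun x => g x = b)).card
        ≤ ∑ _b : Fin r, (X.filter (fun x => g x = k)).card := sum_le_sum fun b hb => hk b hb
      _ = _ := by simp
  have hne : (X.filter (fun x => g x = k)).Nonempty := by
    rw [nonempty_iff_ne_empty]
    intro he
    rw [he] at hle
    simp at hle
    exact absurd hx0 (by rw [hle]; simp)
  obtain ⟨x, hx⟩ := hne
  exact ⟨k, ⟨x, (mem_filter.mp hx).1, (mem_filter.mp hx).2⟩, hle⟩

/-- The typing: the core of a copy is made of core types. -/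
lemma typing {P : Fin M → Fin M → Bool} (hP : Rigid P) (hM : 256000 ≤ M)
    (hM2 : 2 * M < 1000 * 1000) (R : Fin (M + 3) → RTy D M) (C : Fin (M + 3) → CTy D M)
    (hcell : ∀ i j, cell P (R i) (C j) = pat P i j)
    (hnd : ∀ x y v w u u', R x = .main v u → C y = .main w u' → v ≠ w) :
    (∃ L, R ⟨M, by omega⟩ = .rho L) ∧
      (∀ i : Fin (M + 3), M < (i : ℕ) →
        R i = .zero ∨ (∃ v u, R i = .main v u) ∨ R i = .one) ∧
      (∃ L, C ⟨M, by omega⟩ = .kap L) ∧
      (∀ j : Fin (M + 3), M < (j : ℕ) → (∃ v u, C j = .main v u) ∨ C j = .dd) := by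
  classical
  let e : Fin M → Fin (M + 3) := fun x => ⟨x, by omega⟩
  have hpat : ∀ x y, cell P (R (e x)) (C (e y)) = P x y := by
    intro x y
    rw [hcell]
    simp [pat, e]
  set I := (univ : Finset (Fin M)).filter (fun x => (R (e x)).kind = 4) with hI
  set X0 := (univ : Finset (Fin M)).filter (fun x => ¬ (R (e x)).kind = 4) with hX0
  set J := (univ : Finset (Fin M)).filter (fun y => (C (e y)).kind = 3) with hJ
  set Y0 := (univ : Finset (Fin M)).filter (fun y => ¬ (C (e y)).kind = 3) with hY0
  have hIX : I.card + X0.card = M := by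
    rw [hI, hX0, card_filter_add_card_filter_not]; simp
  have hJY : J.card + Y0.card = M := by
    rw [hJ, hY0, card_filter_add_card_filter_not]; simp
  have hfewY : M ≤ 2 * I.card → Y0.card ≤ 8 := by
    intro hbig
    have key : ∀ c, (Y0.filter (fun y => (C (e y)).code = c)).card ≤ 4 := by
      intro c
      refine small_of_const' hP I _ c ?_ hbig (by omega)
      intro x hx y hy
      obtain ⟨hy0, hyc⟩ := mem_filter.mp hy
      rw [← hpat]
      have a := (mem_filter.mp hx).2
      have b := (mem_filter.mp hy0).2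
      cases hr : R (e x) <;> rw [hr] at a <;> simp [RTy.kind] at a
      cases hc : C (e y) <;> rw [hc] at b hyc <;> simp [CTy.kind] at b <;>
        simp [CTy.code] at hyc <;> simp [cell, ← hyc]
    have hs := card_filter_add_card_filter_not (s := Y0) (fun y => (C (e y)).code = true)
    simp only [Bool.not_eq_true] at hs
    have := key true; have := key false
    omega
  have hfewX : M ≤ 2 * J.card → X0.card ≤ 8 := by
    intro hbig
    have key : ∀ c, (X0.filter (fun x => (R (e x)).code = c)).card ≤ 4 := by
      intro c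
      refine small_of_const hP _ J c ?_ hbig (by omega)
      intro x hx y hy
      obtain ⟨hx0, hxc⟩ := mem_filter.mp hx
      rw [← hpat]
      have a := (mem_filter.mp hx0).2
      have b := (mem_filter.mp hy).2
      cases hc : C (e y) <;> rw [hc] at b <;> simp [CTy.kind] at b
      cases hr : R (e x) <;> rw [hr] at a hxc <;> simp [RTy.kind] at a <;>
        simp [RTy.code] at hxc <;> simp [cell, ← hxc]
    have hs := card_filter_add_card_filter_not (s := X0) (fun x => (R (e x)).code = true)
    simp only [Bool.not_eq_true] at hs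
    have := key true; have := key false
    omega
  have hsome : M ≤ 2 * I.card ∨ M ≤ 2 * J.card := by
    by_contra hcon
    push Not at hcon
    obtain ⟨k, ⟨x0, hx0, hk0⟩, hk⟩ :=
      exists_big_fiber X0 (fun x => (R (e x)).kind) (card_pos.mp (by omega))
    obtain ⟨k', ⟨y0, hy0, hk0'⟩, hk'⟩ :=
      exists_big_fiber Y0 (fun y => (C (e y)).kind) (card_pos.mp (by omega))
    have hm := mono_kind P (fun x => R (e x)) (fun y => C (e y))
      (X0.filter (fun x => (R (e x)).kind = k)) (Y0.filter (fun y => (C (e y)).kind = k')) k k'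
      (hk0 ▸ (mem_filter.mp hx0).2) (hk0' ▸ (mem_filter.mp hy0).2)
      (fun x hx => (mem_filter.mp hx).2) (fun y hy => (mem_filter.mp hy).2)
      (fun x y => hnd (e x) (e y)) (s := 1000) (by omega) (by omega) (by omega)
    obtain ⟨X', -, Y', -, h1, h2, c, hc⟩ := hm
    have := hP.mono X' Y' c (fun x hx y hy => by rw [← hpat]; exact hc x hx y hy)
    have := Nat.mul_le_mul h1 h2
    omega
  have hIJ : X0.card ≤ 8 ∧ Y0.card ≤ 8 := by
    rcases hsome with h | h
    · have := hfewY h; exact ⟨hfewX (by omega), this⟩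
    · have := hfewX h; exact ⟨this, hfewY (by omega)⟩
  have hσ : ∀ x ∈ I, ∃ s, R (e x) = .sig s := by
    intro x hx
    have a := (mem_filter.mp hx).2
    cases hr : R (e x) <;> rw [hr] at a <;> simp [RTy.kind] at a
    exact ⟨_, rfl⟩
  have hτ : ∀ y ∈ J, ∃ s, C (e y) = .tau s := by
    intro y hy
    have a := (mem_filter.mp hy).2
    cases hr : C (e y) <;> rw [hr] at a <;> simp [CTy.kind] at a
    exact ⟨_, rfl⟩
  choose σ hσ using hσ
  choose τ hτ using hτ
  have hσi : ∀ a ha b hb, σ a ha = σ b hb → a = b := by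
    intro a ha b hb h
    by_contra hne
    have := hP.rowAgree a b hne J (fun y hy => by
      rw [← hpat, ← hpat, hσ a ha, hσ b hb, h])
    omega
  have hτi : ∀ a ha b hb, τ a ha = τ b hb → a = b := by
    intro a ha b hb h
    by_contra hne
    have := hP.colAgree a b hne I (fun x hx => by
      rw [← hpat, ← hpat, hτ a ha, hτ b hb, h])
    omega
  have nsig : ∀ i : Fin (M + 3), M ≤ (i : ℕ) → ∀ s, R i ≠ .sig s := by
    intro i hi s hs
    have := hP.rowWeight s (decide ((i : ℕ) ≠ M)) (J.attach.image (fun y => τ y.1 y.2)) (by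
      intro t ht
      obtain ⟨⟨y, hy⟩, -, rfl⟩ := mem_image.mp ht
      have := hcell i (e y)
      rw [hs, hτ y hy] at this
      simpa [cell, pat, e, not_lt.mpr hi] using this)
    rw [card_image_of_injective _ (fun a b h => Subtype.ext (hτi _ a.2 _ b.2 h)),
      card_attach] at this
    omega
  have ntau : ∀ j : Fin (M + 3), M ≤ (j : ℕ) → ∀ s, C j ≠ .tau s := by
    intro j hj s hs
    have := hP.colWeight s (decide ((j : ℕ) ≠ M)) (I.attach.image (fun x => σ x.1 x.2)) (by
      intro t ht
      obtain ⟨⟨x, hx⟩, -, rfl⟩ := mem_image.mp ht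
      have := hcell (e x) j
      rw [hs, hσ x hx] at this
      simpa [cell, pat, e, not_lt.mpr hj] using this)
    rw [card_image_of_injective _ (fun a b h => Subtype.ext (hσi _ a.2 _ b.2 h)),
      card_attach] at this
    omega
  obtain ⟨y1, hy1⟩ : J.Nonempty := card_pos.mp (by omega)
  obtain ⟨x1, hx1⟩ : I.Nonempty := card_pos.mp (by omega)
  have rcode : ∀ i : Fin (M + 3), M ≤ (i : ℕ) → (R i).code = decide ((i : ℕ) ≠ M) := by
    intro i hi
    have h := hcell i (e y1)
    rw [hτ y1 hy1] at h
    have hn := nsig i hi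
    cases hr : R i <;> rw [hr] at h <;>
      first
        | exact absurd hr (hn _)
        | simpa [cell, pat, e, not_lt.mpr hi, RTy.code] using h
  have ccode : ∀ j : Fin (M + 3), M ≤ (j : ℕ) → (C j).code = decide ((j : ℕ) ≠ M) := by
    intro j hj
    have h := hcell (e x1) j
    rw [hσ x1 hx1] at h
    have hn := ntau j hj
    cases hr : C j <;> rw [hr] at h <;>
      first
        | exact absurd hr (hn _)
        | simpa [cell, pat, e, not_lt.mpr hj, CTy.code] using h
  refine ⟨?_, ?_, ?_, ?_⟩
  · have h := rcode ⟨M, by omega⟩ le_rfl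
    cases hr : R ⟨M, by omega⟩ <;> rw [hr] at h <;> simp [RTy.code] at h
    exact ⟨_, rfl⟩
  · intro i hi
    have h := rcode i hi.le
    have hn := nsig i hi.le
    cases hr : R i <;> rw [hr] at h <;>
      first
        | exact absurd hr (hn _)
        | simp [RTy.code, ne_of_gt hi] at h ⊢
  · have h := ccode ⟨M, by omega⟩ le_rfl
    cases hr : C ⟨M, by omega⟩ <;> rw [hr] at h <;> simp [CTy.code] at h
    exact ⟨_, rfl⟩
  · intro j hj
    have h := ccode j hj.le
    have hn := ntau j hj.le
    cases hr : C j <;> rw [hr] at h <;>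
      first
        | exact absurd hr (hn _)
        | simp [CTy.code, ne_of_gt hj] at h ⊢

/-- No copy avoids the pairs in a common leaf. -/
theorem sound {P : Fin M → Fin M → Bool} (hP : Rigid P) (hM : 256000 ≤ M)
    (hM2 : 2 * M < 1000 * 1000) (hD : 1 ≤ D) (hm : 1 ≤ m)
    (p : (Fin (M + 3) → Fin (size D M m)) × (Fin (M + 3) → Fin (size D M m)))
    (hp : IsCopy (pat P) (host D M m P) p) :
    ∃ i j v u u', rowTy D M m (p.1 i) = .main v u ∧ colTy D M m (p.2 j) = .main v u' := by
  obtain ⟨hr, hc, hcp⟩ := hp
  by_contra hcon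
  have hnd : ∀ x y v w u u', rowTy D M m (p.1 x) = .main v u →
      colTy D M m (p.2 y) = .main w u' → v ≠ w := by
    intro x y v w u u' h1 h2 he
    exact hcon ⟨x, y, v, u, u', h1, he ▸ h2⟩
  obtain ⟨⟨L, hL⟩, hrow, ⟨L', hL'⟩, hcol⟩ :=
    typing hP hM hM2 (fun i => rowTy D M m (p.1 i)) (fun j => colTy D M m (p.2 j)) hcp hnd
  change ∀ i : Fin (M + 3), M < (i : ℕ) → rowTy D M m (p.1 i) = .zero ∨
    (∃ v u, rowTy D M m (p.1 i) = .main v u) ∨ rowTy D M m (p.1 i) = .one at hrow
  change ∀ j : Fin (M + 3), M < (j : ℕ) →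
    (∃ v u, colTy D M m (p.2 j) = .main v u) ∨ colTy D M m (p.2 j) = .dd at hcol
  change rowTy D M m (p.1 ⟨M, by omega⟩) = .rho L at hL
  change colTy D M m (p.2 ⟨M, by omega⟩) = .kap L' at hL'
  have key : ∀ i j, cell P (rowTy D M m (p.1 i)) (colTy D M m (p.2 j)) = pat P i j := hcp
  let ia : Fin (M + 3) := ⟨M + 1, by omega⟩
  let ib : Fin (M + 3) := ⟨M + 2, by omega⟩
  let i0 : Fin (M + 3) := ⟨M, by omega⟩
  have hLL : L = L' := by
    have := key i0 i0
    rw [hL, hL'] at this
    simpa [cell, pat, i0] using this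
  subst hLL
  have za : zMem L (rowTy D M m (p.1 ia)) = true := by
    have := key ia i0
    rw [hL'] at this
    rcases hrow ia (by simp [ia]) with h | ⟨v, u, h⟩ | h <;> rw [h] at this ⊢ <;>
      simpa [cell, pat, ia, i0] using this
  have zb : zMem L (rowTy D M m (p.1 ib)) = true := by
    have := key ib i0
    rw [hL'] at this
    rcases hrow ib (by simp [ib]) with h | ⟨v, u, h⟩ | h <;> rw [h] at this ⊢ <;>
      simpa [cell, pat, ib, i0] using this
  have wc : wMem L (colTy D M m (p.2 ia)) = true := by
    have := key i0 ia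
    rw [hL] at this
    rcases hcol ia (by simp [ia]) with ⟨v, u, h⟩ | h <;> rw [h] at this ⊢ <;>
      simpa [cell, pat, ia, i0] using this
  have wd : wMem L (colTy D M m (p.2 ib)) = true := by
    have := key i0 ib
    rw [hL] at this
    rcases hcol ib (by simp [ib]) with ⟨v, u, h⟩ | h <;> rw [h] at this ⊢ <;>
      simpa [cell, pat, ib, i0] using this
  have cac : cell P (rowTy D M m (p.1 ia)) (colTy D M m (p.2 ia)) = false := by
    rw [key]; simp [pat, ia]
  have cbc : cell P (rowTy D M m (p.1 ib)) (colTy D M m (p.2 ia)) = true := by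
    rw [key]; simp [pat, ia, ib]
  have cbd : cell P (rowTy D M m (p.1 ib)) (colTy D M m (p.2 ib)) = false := by
    rw [key]; simp [pat, ib]
  have hab : (p.1 ia : ℕ) ≤ (p.1 ib : ℕ) := le_of_lt (hr (show ia < ib by simp [ia, ib]))
  have hcd : (p.2 ia : ℕ) ≤ (p.2 ib : ℕ) := le_of_lt (hc (show ia < ib by simp [ia, ib]))
  obtain ⟨w, uc, hC⟩ : ∃ w u, colTy D M m (p.2 ia) = .main w u := by
    rcases hcol ia (by simp [ia]) with h | h
    · exact h
    · exfalso
      rw [h] at cbc
      rcases hrow ib (by simp [ib]) with g | ⟨v, u, g⟩ | g <;> rw [g] at cbc <;> simp [cell] at cbc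
  obtain ⟨-, -, hw, -⟩ := colTy_main hm hC
  rw [hC] at wc cac cbc
  cases L with
  | bot =>
    rcases hrow ib (by simp [ib]) with g | ⟨v, u, g⟩ | g <;> rw [g] at cbc zb <;>
      simp [cell, zMem, wMem] at cbc zb wc
    omega
  | top =>
    rcases hrow ia (by simp [ia]) with g | ⟨v, u, g⟩ | g <;> rw [g] at cac za <;>
      simp [cell, zMem, wMem] at cac za wc
    obtain ⟨-, -, hv, -⟩ := rowTy_main hm g
    have := cac (hnd ia ia v w u uc g hC)
    have := sh_lt hD hv hw
    omega
  | ev i b =>
    rcases hrow ia (by simp [ia]) with g | ⟨va, ua, ga⟩ | g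
    · rw [g] at za; simp [zMem] at za
    swap
    · rw [g] at za; simp [zMem] at za
    rcases hrow ib (by simp [ib]) with g | ⟨vb, ub, gb⟩ | g
    · rw [g] at zb; simp [zMem] at zb
    swap
    · rw [g] at zb; simp [zMem] at zb
    rw [ga] at za cac
    rw [gb] at zb cbc
    simp [cell, zMem, wMem] at za zb wc cac cbc
    obtain ⟨-, -, hva, -⟩ := rowTy_main hm ga
    have hne := hnd ia ia va w ua uc ga hC
    have hta := cac hne
    have hmono := sh_mono_left D (w := w) (rowTy_main_mono hm hab ga gb)
    obtain ⟨rfl, hbw⟩ := wc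
    have hub : ub ≤ (i : ℕ) + 1 := by rcases zb with z | z <;> omega
    have hua : (i : ℕ) ≤ ua := by rcases za with z | z <;> omega
    have hti : sh D va w = (i : ℕ) := by omega
    rcases za with ⟨-, hbv⟩ | z
    · exact bitAt_ne hD hva hw hne hti (hbv.trans hbw.symm)
    · omega
  | od i =>
    rcases hcol ib (by simp [ib]) with ⟨w', ud, gd⟩ | g
    swap
    · rw [g] at wd; simp [wMem] at wd
    rcases hrow ib (by simp [ib]) with g | ⟨vb, ub, gb⟩ | g
    · rw [g] at cbc; simp [cell] at cbc
    swap
    · rw [g] at zb; simp [zMem] at zb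
    rw [gb] at zb cbc cbd
    rw [gd] at wd cbd
    simp [cell, zMem, wMem] at zb wc wd cbc cbd
    have htd := cbd (hnd ib ib vb w' ub ud gb gd)
    have hmono := sh_anti_right D (v := vb) (colTy_main_mono hm hcd hC gd)
    omega

theorem soundSpec : SoundSpec := fun _ _ _ _ hP hM hM2 hD hm => sound hP hM hM2 hD hm

end Vale.Agent.P037.Disproof
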