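import Vale.Agent.P037.Disproof.Count
import Vale.Agent.P037.Disproof.Sound
import Vale.Agent.P037.Disproof.Far

/-!
Polynomial ordered matrix removal is false, even for all sufficiently large matrices.
-/

namespace Vale.Agent.P037.Disproof

theorem not_polynomialRemovalLarge : ¬ PolynomialRemovalLarge :=
  polynomialRemovalLarge_false soundSpec (fun _ _ _ P _ hM hm B hB => far_main P hM hm B hB)

theorem not_polynomialRemoval : ¬ PolynomialRemoval := fun h =>
  not_polynomialRemovalLarge fun k hk H => by
    obtain ⟨c, C, hc, hC, hrem⟩ := h k hk H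
    exact ⟨c, C, hc, hC, fun ε hε hε1 => ⟨1, fun n hn A hA => hrem n hn ε hε hε1 A hA⟩⟩

end Vale.Agent.P037.Disproof
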