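import Vale.Agent.P037.Defs

/-!
Choosing good rows and columns in a matrix that is close to another one.
-/

open Finset

namespace Vale.Agent.P037.Disproof

variable {n : ℕ}

/-- Number of changed entries in a row. -/
def rowDiff (A B : Fin n → Fin n → Bool) (p : Fin n) : ℕ :=
  (univ.filter (fun q => A p q ≠ B p q)).card

/-- The transpose. -/
def tp (A : Fin n → Fin n → Bool) (q p : Fin n) : Bool := A p q

/-- A row with few changes. -/
def Good (U k : ℕ) (A B : Fin n → Fin n → Bool) (p : Fin n) : Prop := 4 * k * rowDiff A B p < U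

lemma entryDiff_eq_sum (A B : Fin n → Fin n → Bool) :
    entryDiff A B = ∑ p, rowDiff A B p := by
  rw [entryDiff, card_eq_sum_card_fiberwise (f := Prod.fst) (t := (univ : Finset (Fin n)))
    (fun _ _ => mem_univ _)]
  refine sum_congr rfl fun p _ => ?_
  refine card_bij (fun x _ => x.2) ?_ ?_ ?_
  · intro x hx
    simp only [mem_filter, mem_univ, true_and] at hx
    simp [← hx.2, hx.1]
  · intro x hx y hy h
    simp only [mem_filter, mem_univ, true_and] at hx hy
    exact Prod.ext (hx.2.trans hy.2.symm) h
  · intro q hq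
    exact ⟨(p, q), by simpa using hq, rfl⟩

lemma entryDiff_tp (A B : Fin n → Fin n → Bool) : entryDiff (tp A) (tp B) = entryDiff A B :=
  card_bij (fun x _ => (x.2, x.1)) (fun x hx => mem_filter.mpr ⟨mem_univ _, (mem_filter.mp hx).2⟩)
    (fun x _ y _ h => by simp [Prod.ext_iff] at h ⊢; exact h.symm)
    (fun x hx => ⟨(x.2, x.1), mem_filter.mpr ⟨mem_univ _, (mem_filter.mp hx).2⟩, rfl⟩)

open scoped Classical in
lemma few_bad (U k : ℕ) (A B : Fin n → Fin n → Bool) (h : 32 * k * entryDiff A B < U ^ 2) :
    8 * (univ.filter (fun p => ¬ Good U k A B p)).card < U := by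
  have h1 : (univ.filter (fun p => ¬ Good U k A B p)).card * U ≤ 4 * k * entryDiff A B := by
    rw [entryDiff_eq_sum, mul_sum, ← smul_eq_mul]
    refine le_trans ?_ (sum_le_sum_of_subset (subset_univ (univ.filter (fun p => ¬ Good U k A B p))))
    exact card_nsmul_le_sum _ _ _ fun p hp => by simpa [Good] using hp
  by_contra hc
  push Not at hc
  nlinarith [Nat.mul_le_mul_right U hc]

/-- In every slot there is a good row that agrees with few given good columns. -/
lemma pick (U k : ℕ) (A B : Fin n → Fin n → Bool) (h : 32 * k * entryDiff A B < U ^ 2)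
    (Q : Finset (Fin n)) (hQ : Q.card ≤ k) (hgood : ∀ q ∈ Q, Good U k (tp A) (tp B) q)
    (s : ℕ) (hs : (s + 1) * U ≤ n) :
    ∃ p : Fin n, s * U ≤ (p : ℕ) ∧ (p : ℕ) < (s + 1) * U ∧ Good U k A B p ∧
      ∀ q ∈ Q, A p q = B p q := by
  classical
  by_contra hcon
  push Not at hcon
  let e : Fin U → Fin n := fun o => ⟨s * U + o, by have := o.isLt; rw [Nat.succ_mul] at hs; omega⟩
  have hinj : Function.Injective e := fun a b hab => by
    simp [e] at hab; exact Fin.ext (by omega)
  have hsub : (univ : Finset (Fin U)).image e ⊆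
      univ.filter (fun p => ¬ Good U k A B p) ∪
        Q.biUnion (fun q => univ.filter (fun p => A p q ≠ B p q)) := by
    intro p hp
    obtain ⟨o, -, rfl⟩ := mem_image.mp hp
    by_cases hg : Good U k A B (e o)
    · obtain ⟨q, hq, hne⟩ := hcon (e o) (by simp [e])
        (by simp [e]; rw [Nat.succ_mul]; omega) hg
      exact mem_union_right _ (mem_biUnion.mpr ⟨q, hq, by simp [hne]⟩)
    · exact mem_union_left _ (by simp [hg])
  have hbad := few_bad U k A B h
  have hU : U ≤ (univ.filter (fun p => ¬ Good U k A B p)).card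
      + ∑ q ∈ Q, (univ.filter (fun p => A p q ≠ B p q)).card := by
    have := (card_le_card hsub).trans (card_union_le _ _)
    rw [card_image_of_injective _ hinj, card_univ, Fintype.card_fin] at this
    exact this.trans (Nat.add_le_add_left card_biUnion_le _)
  have hsum : 4 * k * (∑ q ∈ Q, (univ.filter (fun p => A p q ≠ B p q)).card) ≤ k * U := by
    rw [mul_sum]
    refine (sum_le_card_nsmul Q _ U fun q hq => ?_).trans (Nat.mul_le_mul_right U hQ)
    exact le_of_lt (hgood q hq)
  rcases Nat.eq_zero_or_pos k with hk | hk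
  · subst hk
    have hQe : Q = ∅ := card_eq_zero.mp (by omega)
    rw [hQe] at hU
    simp at hU
    omega
  · have : 4 * (∑ q ∈ Q, (univ.filter (fun p => A p q ≠ B p q)).card) ≤ U :=
      Nat.le_of_mul_le_mul_left (by linarith) hk
    omega

end Vale.Agent.P037.Disproof
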