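import Mathlib

/-!
The signed height of the least common ancestor of two leaves of a binary tree.
-/

namespace Vale.Agent.P037.Disproof

lemma ht_exists (v w : ℕ) : ∃ j, v / 2 ^ (j + 1) = w / 2 ^ (j + 1) := by
  refine ⟨v + w, ?_⟩
  have h : v + w + 1 < 2 ^ (v + w + 1) := Nat.lt_two_pow_self
  rw [Nat.div_eq_of_lt (by omega), Nat.div_eq_of_lt (by omega)]

/-- Height of the highest bit in which `v` and `w` differ. -/
def ht (v w : ℕ) : ℕ := Nat.find (ht_exists v w)

lemma ht_spec (v w : ℕ) : v / 2 ^ (ht v w + 1) = w / 2 ^ (ht v w + 1) :=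
  Nat.find_spec (ht_exists v w)

lemma ht_le {v w j : ℕ} (h : v / 2 ^ (j + 1) = w / 2 ^ (j + 1)) : ht v w ≤ j :=
  Nat.find_min' _ h

lemma ht_comm (v w : ℕ) : ht v w = ht w v :=
  le_antisymm (ht_le (ht_spec w v).symm) (ht_le (ht_spec v w).symm)

lemma ht_lt {D v w : ℕ} (hD : 1 ≤ D) (hv : v < 2 ^ D) (hw : w < 2 ^ D) : ht v w < D := by
  have h : ht v w ≤ D - 1 := by
    apply ht_le
    rw [show D - 1 + 1 = D by omega, Nat.div_eq_of_lt hv, Nat.div_eq_of_lt hw]
  omega

lemma div_pow_eq_of_le {v w a b : ℕ} (hab : a ≤ b) (h : v / 2 ^ a = w / 2 ^ a) :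
    v / 2 ^ b = w / 2 ^ b := by
  obtain ⟨c, rfl⟩ := Nat.exists_eq_add_of_le hab
  rw [pow_add, ← Nat.div_div_eq_div_mul, ← Nat.div_div_eq_div_mul, h]

/-- Between `v` and `w` the height can only drop. -/
lemma ht_between {v u w : ℕ} (h1 : v ≤ u) (h2 : u ≤ w) :
    ht v u ≤ ht v w ∧ ht u w ≤ ht v w := by
  have hs := ht_spec v w
  have a := Nat.div_le_div_right (c := 2 ^ (ht v w + 1)) h1
  have b := Nat.div_le_div_right (c := 2 ^ (ht v w + 1)) h2
  constructor <;> apply ht_le <;> omega

lemma ht_eq_max {v u w : ℕ} (h1 : v ≤ u) (h2 : u ≤ w) :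
    ht v w = max (ht v u) (ht u w) := by
  apply le_antisymm
  · apply ht_le
    exact (div_pow_eq_of_le (by omega) (ht_spec v u)).trans
      (div_pow_eq_of_le (by omega) (ht_spec u w))
  · exact max_le (ht_between h1 h2).1 (ht_between h1 h2).2

lemma testBit_ht {v w : ℕ} (h : v ≠ w) : v.testBit (ht v w) ≠ w.testBit (ht v w) := by
  have hs := ht_spec v w
  have hne : v / 2 ^ ht v w ≠ w / 2 ^ ht v w := by
    intro he
    cases hh : ht v w with
    | zero => rw [hh] at he; simp at he; exact h he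
    | succ k =>
      rw [hh] at he
      have := ht_le he
      omega
  rw [pow_succ, ← Nat.div_div_eq_div_mul, ← Nat.div_div_eq_div_mul] at hs
  intro hb
  rw [Nat.testBit_eq_decide_div_mod_eq, Nat.testBit_eq_decide_div_mod_eq,
    decide_eq_decide] at hb
  omega

/-- Signed height in `[0, 2D)`. -/
def sh (D v w : ℕ) : ℕ := if v < w then D - 1 - ht v w else D + ht v w

lemma sh_lt {D v w : ℕ} (hD : 1 ≤ D) (hv : v < 2 ^ D) (hw : w < 2 ^ D) : sh D v w < 2 * D := by
  have := ht_lt hD hv hw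
  unfold sh; split <;> omega

lemma sh_mono_left (D : ℕ) {v v' w : ℕ} (h : v ≤ v') :
    sh D v w ≤ sh D v' w := by
  unfold sh
  split <;> split
  · have := (ht_between h (le_of_lt ‹v' < w›)).2
    omega
  · omega
  · omega
  · have := (ht_between (show w ≤ v by omega) h).1
    rw [ht_comm v w, ht_comm v' w]
    omega

lemma sh_anti_right (D : ℕ) {v w w' : ℕ} (h : w ≤ w') :
    sh D v w' ≤ sh D v w := by
  unfold sh
  split <;> split
  · have := (ht_between (le_of_lt ‹v < w›) h).1
    omega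
  · omega
  · omega
  · have := (ht_between h (show w' ≤ v by omega)).2
    rw [ht_comm v w, ht_comm v w']
    omega

/-- The bit that is determined by the value `i` of the signed height. -/
def lvl (D i : ℕ) : ℕ := if i < D then D - 1 - i else i - D

/-- The bit revealed at index `i`. -/
def bitAt (D i v : ℕ) : Bool := v.testBit (lvl D i)

lemma bitAt_ne {D v w i : ℕ} (hD : 1 ≤ D) (hv : v < 2 ^ D) (hw : w < 2 ^ D) (h : v ≠ w)
    (hi : sh D v w = i) : bitAt D i v ≠ bitAt D i w := by
  have := ht_lt hD hv hw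
  have hl : lvl D i = ht v w := by
    subst hi
    unfold sh lvl
    split <;> split <;> omega
  unfold bitAt
  rw [hl]
  exact testBit_ht h

end Vale.Agent.P037.Disproof
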